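import Vale.Agent.P133.Base

/-!
Hereditary subalgebras in prime quotients of weakly purely infinite algebras.
-/

set_option linter.unusedSectionVars false

namespace Vale.Agent.P133

variable {A : Type*} [NonUnitalCStarAlgebra A] [PartialOrder A] [StarOrderedRing A]

lemma abs_le_norm_of_mem {a : A} (ha : IsSelfAdjoint a) {t : ℝ} (ht : t ∈ quasispectrum ℝ a) :
    |t| ≤ ‖a‖ := by
  have := norm_apply_le_norm_cfcₙ (fun s : ℝ => s) a ht
  rwa [cfcₙ_id' ℝ a ha] at this

/-- `s * (t - s)₊`. -/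
noncomputable def lowFun (t : ℝ) : ℝ → ℝ := fun s => s * max (t - s) 0

lemma continuous_lowFun (t : ℝ) : Continuous (lowFun t) := by unfold lowFun; fun_prop

lemma lowFun_zero (t : ℝ) : lowFun t 0 = 0 := by simp [lowFun]

lemma norm_sum_orth_selfAdjoint {ι : Type*} (s : Finset ι) (X : ι → A) {B : ℝ} (hB : 0 ≤ B)
    (hsa : ∀ i ∈ s, IsSelfAdjoint (X i)) (horth : ∀ i ∈ s, ∀ j ∈ s, i ≠ j → X i * X j = 0)
    (hb : ∀ i ∈ s, ‖X i‖ ≤ B) : ‖∑ i ∈ s, X i‖ ≤ B := by
  classical
  induction s using Finset.induction with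
  | empty => simpa using hB
  | insert i s hi ih =>
    have h1 : X i * (∑ j ∈ s, X j) = 0 := by
      rw [Finset.mul_sum]
      exact Finset.sum_eq_zero fun j hj =>
        horth i (by simp) j (by simp [hj]) (fun h => hi (h ▸ hj))
    have h2 : (∑ j ∈ s, X j) * X i = 0 := by
      rw [Finset.sum_mul]
      exact Finset.sum_eq_zero fun j hj =>
        horth j (by simp [hj]) i (by simp) (fun h => hi (h ▸ hj))
    have hs : IsSelfAdjoint (∑ j ∈ s, X j) := isSelfAdjoint_sum s fun j hj => hsa j (by simp [hj])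
    rw [Finset.sum_insert hi,
      IsStarNormal.norm_add_eq_max (hsa i (by simp)).isStarNormal hs.isStarNormal
        (show Commute _ _ from h1.trans h2.symm) h1]
    exact max_le (hb i (by simp)) (ih (fun j hj => hsa j (by simp [hj]))
      (fun j hj l hl => horth j (by simp [hj]) l (by simp [hl])) fun j hj => hb j (by simp [hj]))

lemma exists_prime_witness {P : Submodule ℂ A} (hP : IsPrimeIdeal P) {a b : A} (ha : a ∉ P)
    (hb : b ∉ P) : ∃ c, a * c * b ∉ P := by
  by_contra h
  push Not at h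
  exact (hP.2 a b h).elim ha hb

lemma almost_proj {P : Submodule ℂ A} (hP : IsPrimeIdeal P) {c k : A}
    (H : ∀ c1 c2 : A, 0 ≤ c1 → 0 ≤ c2 → RMem c c1 → RMem c c2 → c1 * c2 = 0 → c1 ∈ P ∨ c2 ∈ P)
    (hk : 0 ≤ k) (hck : RMem c k) (hkP : k ∉ P) :
    ∃ lam : ℝ, 0 < lam ∧ k * k - (lam : ℂ) • k ∈ P := by
  have hspec : ∀ s ∈ quasispectrum ℝ k, 0 ≤ s ∧ s ≤ ‖k‖ := fun s hs =>
    ⟨quasispectrum_nonneg_of_nonneg k hk s hs,
      (le_abs_self s).trans (abs_le_norm_of_mem hk.isSelfAdjoint hs)⟩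
  have hlip : ∀ t t' : ℝ, dist (cut t k) (cut t' k) ≤ 1 * dist t t' := by
    intro t t'
    rw [dist_eq_norm, one_mul, Real.dist_eq, cut, cut,
      ← cfcₙ_sub _ _ k (continuous_cutFun t).continuousOn (cutFun_zero t)
        (continuous_cutFun t').continuousOn (cutFun_zero t')]
    refine norm_cfcₙ_le fun s _ => ?_
    rw [Real.norm_eq_abs]
    refine (abs_max_sub_max_le_abs _ _ _).trans ?_
    rw [sub_sub_sub_cancel_left, abs_sub_comm t t']
    exact abs_max_sub_max_le_abs _ _ _
  set S : Set ℝ := {t | 0 ≤ t ∧ cut t k ∈ P}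
  have hSc : IsClosed S :=
    isClosed_Ici.inter (hP.1.1.preimage (LipschitzWith.of_dist_le' hlip).continuous)
  have hne : S.Nonempty := by
    refine ⟨‖k‖, norm_nonneg k, ?_⟩
    have : cut ‖k‖ k = 0 := by
      rw [cut, ← cfcₙ_const_zero ℝ k]
      refine cfcₙ_congr fun s hs => ?_
      simp only [cutFun, max_eq_left (norm_nonneg k)]
      exact max_eq_right (by linarith [(hspec s hs).2])
    rw [this]; exact P.zero_mem
  set lam := sInf S with hlam
  have hbdd : BddBelow S := ⟨0, fun t ht => ht.1⟩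
  have hlamS : lam ∈ S := hSc.csInf_mem hne hbdd
  have hcut0 : cut 0 k = k := by
    nth_rw 2 [← cfcₙ_id' ℝ k]
    rw [cut]
    refine cfcₙ_congr fun s hs => ?_
    simp [cutFun, (hspec s hs).1]
  have hpos : 0 < lam := by
    rcases hlamS.1.lt_or_eq with h | h
    · exact h
    · exact absurd (hcut0 ▸ h.symm ▸ hlamS.2) hkP
  refine ⟨lam, hpos, ?_⟩
  have hlow : cfcₙ (lowFun lam) k ∈ P := by
    refine hP.1.mem_of_forall_near fun ε hε => ?_
    set t := max 0 (lam - ε / (‖k‖ + 1)) with ht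
    have ht0 : 0 ≤ t := le_max_left _ _
    have htl : t < lam := max_lt hpos (by linarith [(by positivity : 0 < ε / (‖k‖ + 1))])
    have htS : cut t k ∉ P := fun h => (not_le.2 htl) (csInf_le hbdd ⟨ht0, h⟩)
    have hlt : cfcₙ (lowFun t) k ∈ P := by
      refine (H (cut t k) (cfcₙ (lowFun t) k) (cut_nonneg t k) (cfcₙ_nonneg fun s hs => ?_)
        (hck.trans (rmem_cut t k)) (hck.trans (rmem_cfcₙ _ _)) ?_).resolve_left htS
      · exact mul_nonneg (hspec s hs).1 (le_max_right _ _)
      · rw [cut, ← cfcₙ_mul _ _ k (continuous_cutFun t).continuousOn (cutFun_zero t)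
          (continuous_lowFun t).continuousOn (lowFun_zero t), ← cfcₙ_const_zero ℝ k]
        refine cfcₙ_congr fun s hs => ?_
        simp only [cutFun, lowFun, max_eq_left ht0]
        rcases le_total (t - s) 0 with h | h
        · simp [max_eq_right h]
        · rw [max_eq_right (by linarith : s - t ≤ 0), zero_mul]
    refine ⟨_, hlt, ?_⟩
    rw [← cfcₙ_sub _ _ k (continuous_lowFun lam).continuousOn (lowFun_zero lam)
      (continuous_lowFun t).continuousOn (lowFun_zero t)]
    refine norm_cfcₙ_le fun s hs => ?_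
    rw [Real.norm_eq_abs, lowFun, lowFun, ← mul_sub, abs_mul]
    have h1 : |max (lam - s) 0 - max (t - s) 0| ≤ ε / (‖k‖ + 1) := by
      refine (abs_max_sub_max_le_abs _ _ _).trans ?_
      rw [sub_sub_sub_cancel_right, abs_of_nonneg (by linarith)]
      linarith [le_max_right 0 (lam - ε / (‖k‖ + 1))]
    calc |s| * |max (lam - s) 0 - max (t - s) 0| ≤ (‖k‖ + 1) * (ε / (‖k‖ + 1)) := by
          refine mul_le_mul ?_ h1 (abs_nonneg _) (by positivity)
          rw [abs_of_nonneg (hspec s hs).1]; linarith [(hspec s hs).2]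
      _ = ε := by field_simp
  have hid : cfcₙ (fun s : ℝ => s) k = k := cfcₙ_id' ℝ k
  have e : k * k - (lam : ℂ) • k = k * cut lam k - cfcₙ (lowFun lam) k := by
    have hc := (continuous_cutFun lam).continuousOn (s := quasispectrum ℝ k)
    have h0 := cutFun_zero lam
    have hc' := (continuous_lowFun lam).continuousOn (s := quasispectrum ℝ k)
    have h0' := lowFun_zero lam
    rw [Complex.coe_smul, cut]
    nth_rw 1 2 3 4 [← hid]
    rw [← cfcₙ_mul .., ← cfcₙ_mul .., ← cfcₙ_smul .., ← cfcₙ_sub .., ← cfcₙ_sub ..]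
    refine cfcₙ_congr fun s hs => ?_
    simp only [smul_eq_mul, cutFun, lowFun, max_eq_left hpos.le]
    rcases le_total (s - lam) 0 with h | h
    · rw [max_eq_right h, max_eq_left (by linarith : (0:ℝ) ≤ lam - s)]; ring
    · rw [max_eq_left h, max_eq_right (by linarith : lam - s ≤ 0)]; ring
  rw [e]
  exact sub_mem (hP.1.2 k _ hlamS.2).1 hlow

lemma corner_scalar {P : Submodule ℂ A} (hP : IsPrimeIdeal P) {c e : A}
    (H : ∀ c1 c2 : A, 0 ≤ c1 → 0 ≤ c2 → RMem c c1 → RMem c c2 → c1 * c2 = 0 → c1 ∈ P ∨ c2 ∈ P)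
    (he0 : 0 ≤ e) (heP : e ∉ P) (hee : e * e - e ∈ P) (hme : RMem c e) (d : A) :
    ∃ β : ℂ, e * d * e - β • e ∈ P := by
  have hes : star e = e := he0.isSelfAdjoint.star_eq
  revert d
  let M : Submodule ℂ A :=
    { carrier := {d | ∃ β : ℂ, e * d * e - β • e ∈ P}
      zero_mem' := ⟨0, by simp⟩
      add_mem' := fun {a b} ⟨β, h⟩ ⟨β', h'⟩ => ⟨β + β', by
        have : e * (a + b) * e - (β + β') • e
            = (e * a * e - β • e) + (e * b * e - β' • e) := by
          rw [mul_add, add_mul, add_smul]; abel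
        rw [this]; exact add_mem h h'⟩
      smul_mem' := fun r a ⟨β, h⟩ => ⟨r * β, by
        have : e * (r • a) * e - (r * β) • e = r • (e * a * e - β • e) := by
          rw [mul_smul_comm, smul_mul_assoc, mul_smul, smul_sub]
        rw [this]; exact P.smul_mem r h⟩ }
  suffices M = ⊤ from fun d => (this ▸ Submodule.mem_top : d ∈ M)
  rw [eq_top_iff, ← CStarAlgebra.span_nonneg, Submodule.span_le]
  intro d hd
  set k := e * d * e with hk
  have hk0 : 0 ≤ k := by
    have := star_left_conjugate_nonneg (a := d) hd e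
    rwa [hes] at this
  have hck : RMem c k := ((hme.mul d).mul e)
  by_cases hkP : k ∈ P
  · exact ⟨0, by simpa [hk] using hkP⟩
  obtain ⟨mu, hmu, h1⟩ := almost_proj hP H hk0 hck hkP
  have hekP : e * k - k ∈ P := by
    have : e * k - k = (e * e - e) * (d * e) := by rw [hk]; noncomm_ring
    rw [this]; exact (hP.1.2 _ _ hee).2
  have hkeP : k * e - k ∈ P := by
    have : k * e - k = (e * d) * (e * e - e) := by rw [hk]; noncomm_ring
    rw [this]; exact (hP.1.2 _ _ hee).1
  have hkeP' : k + e ∉ P := fun h =>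
    heP (hP.1.mem_of_nonneg_of_le he0 (le_add_of_nonneg_left hk0) h)
  obtain ⟨nu, hnu, h2⟩ := almost_proj hP H (add_nonneg hk0 he0)
    (hck.add hme) hkeP'
  have key : ((nu : ℂ) - mu - 2) • k + ((nu : ℂ) - 1) • e ∈ P := by
    have : ((nu : ℂ) - mu - 2) • k + ((nu : ℂ) - 1) • e
        = (k * k - (mu : ℂ) • k) + (e * k - k) + (k * e - k) + (e * e - e)
            - ((k + e) * (k + e) - (nu : ℂ) • (k + e)) := by
      simp only [add_mul, mul_add]
      module
    rw [this]
    exact sub_mem (add_mem (add_mem (add_mem h1 hekP) hkeP) hee) h2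
  by_cases hne : (nu : ℂ) - mu - 2 = 0
  · exfalso
    rw [hne, zero_smul, zero_add] at key
    have hne2 : (nu : ℂ) - 1 ≠ 0 := by
      intro h
      have h' : (mu : ℂ) + 1 = 0 := by linear_combination h - hne
      have : mu + 1 = 0 := by exact_mod_cast h'
      linarith
    exact heP (by simpa [inv_smul_smul₀ hne2] using P.smul_mem ((nu : ℂ) - 1)⁻¹ key)
  · refine ⟨-(((nu : ℂ) - mu - 2)⁻¹ * ((nu : ℂ) - 1)), ?_⟩
    have := P.smul_mem ((nu : ℂ) - mu - 2)⁻¹ key
    rw [smul_add, inv_smul_smul₀ hne, smul_smul] at this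
    rw [neg_smul, sub_neg_eq_add]
    exact this

lemma corner_absurd (hW : WeaklyPurelyInfinite A) {P : Submodule ℂ A} (hP : IsPrimeIdeal P)
    {e : A} (he0 : 0 ≤ e) (heP : e ∉ P) (hee : e * e - e ∈ P)
    (hcorner : ∀ d : A, ∃ β : ℂ, e * d * e - β • e ∈ P) : False := by
  have hes : star e = e := he0.isSelfAdjoint.star_eq
  obtain ⟨n, hn, hn'⟩ := hW
  have hd0 : 0 < Metric.infDist e (P : Set A) :=
    (hP.1.1.notMem_iff_infDist_pos ⟨0, P.zero_mem⟩).1 heP
  set d0 := Metric.infDist e (P : Set A)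
  set ε := d0 / (4 * n * (‖e‖ * ‖e‖ + 1)) with hε
  have hnR : (0:ℝ) < n := by exact_mod_cast hn
  have hε0 : 0 < ε := by positivity
  obtain ⟨x, hx⟩ := hn' e he0 ε hε0
  choose β hβ using fun k i => hcorner (x k i)
  set g : Fin 2 × Fin n → Fin 2 × Fin n → ℂ :=
    fun i j => (∑ k, starRingEnd ℂ (β k i) * β k j) - (if i = j then 1 else 0)
  have hg : ∀ i j, ‖g i j‖ * d0 ≤ ‖e‖ * ε * ‖e‖ := by
    intro i j
    set D := (∑ k, star (x k i) * e * x k j) - (if i = j then e else 0)
    have hterm : ∀ k, e * (star (x k i) * e * x k j) * e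
        - (starRingEnd ℂ (β k i) * β k j) • e ∈ P := by
      intro k
      set U := e * star (x k i) * e
      set V := e * x k j * e
      have hU : U - starRingEnd ℂ (β k i) • e ∈ P := by
        have := hP.1.star_mem (hβ k i)
        rw [star_sub, star_mul, star_mul, star_smul, hes, ← mul_assoc] at this
        exact this
      have e1 : e * (star (x k i) * e * x k j) * e - (starRingEnd ℂ (β k i) * β k j) • e
          = -((e * star (x k i)) * ((e * e - e) * (x k j * e)))
            + (U - starRingEnd ℂ (β k i) • e) * V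
            + starRingEnd ℂ (β k i) • (e * (V - β k j • e) + β k j • (e * e - e)) := by
        simp only [U, V, sub_mul, mul_sub, smul_sub, smul_add, mul_smul_comm, smul_mul_assoc,
          smul_smul, mul_assoc]
        module
      rw [e1]
      exact add_mem (add_mem (neg_mem (hP.1.2 _ _ ((hP.1.2 _ _ hee).2)).1) (hP.1.2 _ _ hU).2)
        (P.smul_mem _ (add_mem (hP.1.2 _ _ (hβ k j)).1 (P.smul_mem _ hee)))
    have hmem : e * D * e - g i j • e ∈ P := by
      have e2 : e * D * e - g i j • e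
          = (∑ k, (e * (star (x k i) * e * x k j) * e - (starRingEnd ℂ (β k i) * β k j) • e))
            - (if i = j then (e * e - e) * e + (e * e - e) else 0) := by
        simp only [D, g, Finset.sum_sub_distrib, sub_smul, Finset.sum_smul, mul_sub, sub_mul,
          Finset.mul_sum, Finset.sum_mul]
        split_ifs
        · simp only [one_smul]; noncomm_ring
        · simp
      rw [e2]
      refine sub_mem (Submodule.sum_mem _ fun k _ => hterm k) ?_
      split_ifs
      · exact add_mem (hP.1.2 _ _ hee).2 hee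
      · exact P.zero_mem
    have h3 : ‖g i j‖ * d0 = Metric.infDist (g i j • e) (P : Set A) := by
      by_cases h0 : g i j = 0
      · simp [h0, Metric.infDist_zero_of_mem P.zero_mem]
      · refine le_antisymm ((Metric.le_infDist ⟨0, P.zero_mem⟩).2 fun p hp => ?_) ?_
        · have := Metric.infDist_le_dist_of_mem (x := e) (P.smul_mem (g i j)⁻¹ hp)
          calc ‖g i j‖ * d0 ≤ ‖g i j‖ * dist e ((g i j)⁻¹ • p) :=
                mul_le_mul_of_nonneg_left this (norm_nonneg _)
            _ = dist (g i j • e) p := by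
                rw [← dist_smul₀, smul_inv_smul₀ h0]
        · rw [mul_comm, ← div_le_iff₀ (norm_pos_iff.2 h0)]
          refine (Metric.le_infDist ⟨0, P.zero_mem⟩).2 fun p hp => ?_
          rw [div_le_iff₀ (norm_pos_iff.2 h0), mul_comm, ← dist_smul₀]
          exact Metric.infDist_le_dist_of_mem (P.smul_mem _ hp)
    rw [h3]
    refine (Metric.infDist_le_dist_of_mem (sub_mem (P.zero_mem) hmem)).trans ?_
    rw [dist_eq_norm, zero_sub, neg_sub, sub_sub_cancel]
    refine (norm_mul_le _ _).trans (mul_le_mul_of_nonneg_right ((norm_mul_le _ _).trans ?_)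
      (norm_nonneg _))
    exact mul_le_mul_of_nonneg_left (hx i j).le (norm_nonneg _)
  let L : ((Fin 2 × Fin n) → ℂ) →ₗ[ℂ] (Fin n → ℂ) := Matrix.mulVecLin (Matrix.of β)
  obtain ⟨ξ, hξL, hξ⟩ : ∃ ξ, L ξ = 0 ∧ ξ ≠ 0 := by
    by_contra h
    push Not at h
    have := LinearMap.finrank_le_finrank_of_injective (f := L)
      ((injective_iff_map_eq_zero L).2 h)
    simp at this
    omega
  have hL : ∀ k, ∑ j, β k j * ξ j = 0 := fun k => by
    simpa [L, Matrix.mulVec, dotProduct] using congrFun hξL k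
  have hsum : ∑ i, ∑ j, starRingEnd ℂ (ξ i) * g i j * ξ j
      = -((∑ i, ‖ξ i‖ ^ 2 : ℝ) : ℂ) := by
    have h1 : ∀ i, ∑ j, starRingEnd ℂ (ξ i) * g i j * ξ j = -(starRingEnd ℂ (ξ i) * ξ i) := by
      intro i
      simp only [g, mul_sub, sub_mul, Finset.sum_sub_distrib, Finset.mul_sum, Finset.sum_mul]
      rw [Finset.sum_comm]
      have : ∀ k, ∑ j, starRingEnd ℂ (ξ i) * (starRingEnd ℂ (β k i) * β k j) * ξ j = 0 := by
        intro k
        calc _ = starRingEnd ℂ (ξ i) * starRingEnd ℂ (β k i) * ∑ j, β k j * ξ j := by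
              rw [Finset.mul_sum]; exact Finset.sum_congr rfl fun j _ => by ring
          _ = 0 := by rw [hL k, mul_zero]
      simp [this]
    simp only [h1, Finset.sum_neg_distrib, Complex.conj_mul']
    push_cast
    rfl
  set G := ‖e‖ * ε * ‖e‖ / d0
  set sq := ∑ i, ‖ξ i‖ ^ 2
  have hsqpos : 0 < sq := by
    obtain ⟨i, hi⟩ := Function.ne_iff.1 hξ
    exact Finset.sum_pos' (fun j _ => by positivity)
      ⟨i, Finset.mem_univ i, by have : 0 < ‖ξ i‖ := norm_pos_iff.2 hi; positivity⟩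
  have h4 : sq ≤ G * (∑ i, ‖ξ i‖) ^ 2 := by
    have := congrArg norm hsum
    rw [norm_neg, Complex.norm_real, Real.norm_eq_abs, abs_of_pos hsqpos] at this
    rw [← this]
    refine (norm_sum_le _ _).trans ?_
    rw [_root_.sq, Finset.sum_mul_sum]
    simp only [Finset.mul_sum]
    refine Finset.sum_le_sum fun i _ => (norm_sum_le _ _).trans ?_
    refine Finset.sum_le_sum fun j _ => ?_
    rw [norm_mul, norm_mul, RCLike.norm_conj]
    calc ‖ξ i‖ * ‖g i j‖ * ‖ξ j‖ ≤ ‖ξ i‖ * G * ‖ξ j‖ := by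
          gcongr
          rw [le_div_iff₀ hd0]; exact hg i j
      _ = G * (‖ξ i‖ * ‖ξ j‖) := by ring
  have h5 : (∑ i, ‖ξ i‖) ^ 2 ≤ (2 * n) * sq := by
    have := sq_sum_le_card_mul_sum_sq (s := (Finset.univ : Finset (Fin 2 × Fin n)))
      (f := fun i => ‖ξ i‖)
    simpa using this
  have h6 : G * (2 * n) < 1 := by
    simp only [G, hε]
    rw [div_mul_eq_mul_div, div_lt_one hd0]
    have hz : 0 ≤ ‖e‖ * ‖e‖ := by positivity
    rw [show ‖e‖ * (d0 / (4 * n * (‖e‖ * ‖e‖ + 1))) * ‖e‖ * (2 * n)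
      = d0 * ((‖e‖ * ‖e‖) / (2 * (‖e‖ * ‖e‖ + 1))) by field_simp; ring]
    calc d0 * ((‖e‖ * ‖e‖) / (2 * (‖e‖ * ‖e‖ + 1))) < d0 * 1 := by
          refine mul_lt_mul_of_pos_left ?_ hd0
          rw [div_lt_one (by positivity)]; linarith
      _ = d0 := mul_one _
  have hG : 0 ≤ G := by positivity
  nlinarith [mul_le_mul_of_nonneg_left h5 hG]

lemma no_two_impossible (hW : WeaklyPurelyInfinite A) {P : Submodule ℂ A} (hP : IsPrimeIdeal P)
    {c : A} (hc : 0 ≤ c) (hcP : c ∉ P) :
    ∃ c1 c2 : A, 0 ≤ c1 ∧ 0 ≤ c2 ∧ RMem c c1 ∧ RMem c c2 ∧ c1 * c2 = 0 ∧ c1 ∉ P ∧ c2 ∉ P := by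
  by_contra hcon
  push Not at hcon
  have H : ∀ c1 c2 : A, 0 ≤ c1 → 0 ≤ c2 → RMem c c1 → RMem c c2 → c1 * c2 = 0 →
      c1 ∈ P ∨ c2 ∈ P := fun c1 c2 a b r1 r2 h => by
    by_cases h1 : c1 ∈ P
    · exact Or.inl h1
    · exact Or.inr (hcon c1 c2 a b r1 r2 h h1)
  have mc : RMem c c := rmem_self c
  obtain ⟨lam, hlam, hproj⟩ := almost_proj hP H hc mc hcP
  set e : A := ((lam⁻¹ : ℝ) : ℂ) • c with he
  have hl : ((lam⁻¹ : ℝ) : ℂ) ≠ 0 := by exact_mod_cast inv_ne_zero hlam.ne'
  have he0 : 0 ≤ e := by rw [he, Complex.coe_smul]; exact smul_nonneg (by positivity) hc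
  have hes : star e = e := he0.isSelfAdjoint.star_eq
  have heP : e ∉ P := fun h => hcP (by
    have := P.smul_mem (((lam⁻¹ : ℝ) : ℂ))⁻¹ h
    rwa [he, inv_smul_smul₀ hl] at this)
  have hee : e * e - e ∈ P := by
    have h1 := P.smul_mem (((lam⁻¹ : ℝ) : ℂ) * ((lam⁻¹ : ℝ) : ℂ)) hproj
    convert h1 using 1
    rw [he, smul_mul_assoc, mul_smul_comm, smul_smul, smul_sub, smul_smul]
    congr 2
    push_cast
    field_simp [Complex.ofReal_ne_zero.2 hlam.ne']
  have hme : RMem c e := by rw [he]; exact mc.smul _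
  exact corner_absurd hW hP he0 heP hee (corner_scalar hP H he0 heP hee hme)

/-- Any number of mutually orthogonal positive elements outside a prime ideal. -/
lemma exists_orth_family (hW : WeaklyPurelyInfinite A) {P : Submodule ℂ A} (hP : IsPrimeIdeal P)
    {c : A} (hc : 0 ≤ c) (hcP : c ∉ P) (m : ℕ) :
    ∃ d : Fin (m + 1) → A, (∀ i, 0 ≤ d i ∧ RMem c (d i) ∧ d i ∉ P) ∧
      ∀ i j, i ≠ j → d i * d j = 0 := by
  induction m generalizing c with
  | zero =>
    exact ⟨fun _ => c, fun _ => ⟨hc, rmem_self c, hcP⟩, fun i j h =>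
      absurd (Fin.ext (by omega) : i = j) h⟩
  | succ m ih =>
    obtain ⟨c1, c2, h1, h2, r1, r2, h12, p1, p2⟩ := no_two_impossible hW hP hc hcP
    obtain ⟨d, hd, hdo⟩ := ih h2 p2
    have h0 : ∀ i, c1 * d i = 0 := fun i => by
      have := RMem.star_mul_eq_zero_self h1.isSelfAdjoint.star_eq h12 (rmem_self c1) (hd i).2.1
      rwa [h1.isSelfAdjoint.star_eq] at this
    have h0' : ∀ i, d i * c1 = 0 := fun i => by
      have := congrArg star (h0 i)
      rwa [star_zero, star_mul, h1.isSelfAdjoint.star_eq, (hd i).1.isSelfAdjoint.star_eq] at this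
    refine ⟨Fin.cons c1 d, fun i => ?_, fun i j hij => ?_⟩
    · cases i using Fin.cases with
      | zero => exact ⟨h1, r1, p1⟩
      | succ i =>
        simp only [Fin.cons_succ]
        exact ⟨(hd i).1, r2.trans (hd i).2.1, (hd i).2.2⟩
    · cases i using Fin.cases with
      | zero =>
        cases j using Fin.cases with
        | zero => exact absurd rfl hij
        | succ j => simpa using h0 j
      | succ i =>
        cases j using Fin.cases with
        | zero => simpa using h0' i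
        | succ j => simpa using hdo i j fun h => hij (h ▸ rfl)

end Vale.Agent.P133
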