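import Vale.Agent.P133.Defs

/-!
Functional calculus and closed ideals.
-/

set_option linter.unusedSectionVars false

namespace Vale.Agent.P133

open Topology Filter

variable {A : Type*} [NonUnitalCStarAlgebra A] [PartialOrder A] [StarOrderedRing A]

/-- `p` lies in the closed right ideal generated by `a`. -/
def RMem (a p : A) : Prop := p ∈ closure (Set.range (fun w => a * w))

lemma rmem_mul (a w : A) : RMem a (a * w) := subset_closure ⟨w, rfl⟩

lemma rmem_zero (a : A) : RMem a 0 := subset_closure ⟨0, mul_zero a⟩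

/-- A closed property holding on `a * w` holds on the closed right ideal. -/
lemma RMem.of_closed {a p : A} (h : RMem a p) {S : Set A} (hS : IsClosed S)
    (hw : ∀ w, a * w ∈ S) : p ∈ S :=
  closure_minimal (by rintro _ ⟨w, rfl⟩; exact hw w) hS h

lemma RMem.mul {a p : A} (h : RMem a p) (w : A) : RMem a (p * w) :=
  map_mem_closure (f := fun q => q * w) (by fun_prop) h
    (by rintro _ ⟨v, rfl⟩; exact ⟨v * w, (mul_assoc _ _ _).symm⟩)

lemma RMem.trans {a p q : A} (h : RMem a p) (h' : RMem p q) : RMem a q :=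
  h'.of_closed isClosed_closure h.mul

lemma RMem.add {a p q : A} (h : RMem a p) (h' : RMem a q) : RMem a (p + q) :=
  map_mem_closure₂ continuous_add h h'
    (by rintro _ ⟨v, rfl⟩ _ ⟨w, rfl⟩; exact ⟨v + w, mul_add _ _ _⟩)

lemma RMem.sum {ι : Type*} {a : A} {p : ι → A} (s : Finset ι) (h : ∀ i ∈ s, RMem a (p i)) :
    RMem a (∑ i ∈ s, p i) := by
  classical
  induction s using Finset.induction with
  | empty => simpa using rmem_zero a
  | insert i s hi ih =>
    rw [Finset.sum_insert hi]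
    exact (h i (by simp)).add (ih fun j hj => h j (by simp [hj]))

lemma RMem.exists_near {a p : A} (h : RMem a p) {ε : ℝ} (hε : 0 < ε) :
    ∃ w, ‖p - a * w‖ < ε := by
  obtain ⟨q, ⟨w, rfl⟩, hq⟩ := Metric.mem_closure_iff.1 h ε hε
  exact ⟨w, by rwa [dist_eq_norm] at hq⟩

lemma RMem.star_mul_eq_zero {a b p q : A} (h : star a * b = 0) (hp : RMem a p) (hq : RMem b q) :
    star p * q = 0 := by
  have h1 : ∀ v, star (a * v) * q = 0 := fun v =>
    hq.of_closed (S := {q | star (a * v) * q = 0}) (isClosed_eq (by fun_prop) continuous_const)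
      (fun w => by
        simp only [Set.mem_ofPred_eq, star_mul]
        rw [show star v * star a * (b * w) = star v * (star a * b) * w by simp [mul_assoc], h]
        simp)
  exact hp.of_closed (S := {p | star p * q = 0}) (isClosed_eq (by fun_prop) continuous_const) h1

/-- An element of the form `f(a)` is close to `a * b`. -/
lemma cfcₙ_near_mul (f : ℝ → ℝ) (a : A) {ε : ℝ} (hε : 0 < ε) :
    ∃ b : A, ‖cfcₙ f a - a * b‖ ≤ ε := by
  refine cfcₙ_cases (fun z => ∃ b : A, ‖z - a * b‖ ≤ ε) a f ⟨0, by simp [hε.le]⟩ ?_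
  intro hf hf0' ha
  rw [← cfcₙ_apply f a hf hf0' ha]
  have hf0 : f 0 = 0 := hf0'
  obtain ⟨ρ, hρ, hclose⟩ := Metric.continuousOn_iff.1 hf 0 (quasispectrum.zero_mem ℝ a) ε hε
  obtain ⟨B, hB⟩ := (NonUnitalContinuousFunctionalCalculus.isCompact_quasispectrum
    (R := ℝ) a).exists_bound_of_continuousOn hf
  have hB0 : 0 ≤ B := (norm_nonneg _).trans (hB 0 (quasispectrum.zero_mem ℝ a))
  set η : ℝ := ε * ρ ^ 2 / (B + 1) with hη
  have hη0 : 0 < η := by positivity
  have hd : ∀ t : ℝ, t ^ 2 + η ≠ 0 := fun t => by positivity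
  have hg : ContinuousOn (fun t => f t * (t / (t ^ 2 + η))) (quasispectrum ℝ a) :=
    hf.mul (Continuous.continuousOn (continuous_id.div (by fun_prop) hd))
  refine ⟨cfcₙ (fun t => f t * (t / (t ^ 2 + η))) a, ?_⟩
  conv_lhs => arg 1; arg 2; arg 1; rw [← cfcₙ_id' ℝ a ha]
  rw [← cfcₙ_mul (fun t => t) _ a (by fun_prop) (by simp) hg (by simp),
    ← cfcₙ_sub f (fun t => t * (f t * (t / (t ^ 2 + η)))) a hf hf0
      (continuousOn_id.mul hg) (by simp)]
  refine norm_cfcₙ_le fun t ht => ?_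
  have he : f t - t * (f t * (t / (t ^ 2 + η))) = f t * (η / (t ^ 2 + η)) := by
    field_simp [hd t]
    ring
  rw [he, norm_mul, Real.norm_eq_abs (η / _), abs_of_pos (by positivity)]
  by_cases hlt : |t| < ρ
  · have h1 : ‖f t‖ ≤ ε := by
      have := (hclose t ht (by simpa [dist_eq_norm] using hlt)).le
      rw [hf0, dist_zero_right] at this
      exact this
    have h2 : η / (t ^ 2 + η) ≤ 1 := (div_le_one (by positivity)).2 (by nlinarith [sq_nonneg t])
    calc ‖f t‖ * (η / (t ^ 2 + η)) ≤ ε * 1 := mul_le_mul h1 h2 (by positivity) hε.le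
      _ = ε := mul_one ε
  · have h3 : ρ ^ 2 ≤ t ^ 2 := by
      rw [← sq_abs t]; exact pow_le_pow_left₀ hρ.le (not_lt.1 hlt) 2
    calc ‖f t‖ * (η / (t ^ 2 + η)) ≤ (B + 1) * (η / ρ ^ 2) := by
          refine mul_le_mul ((hB t ht).trans (by linarith)) ?_ (by positivity) (by linarith)
          exact div_le_div_of_nonneg_left hη0.le (by positivity) (by linarith)
      _ = ε := by rw [hη]; field_simp

lemma rmem_cfcₙ (f : ℝ → ℝ) (a : A) : RMem a (cfcₙ f a) := by
  refine Metric.mem_closure_iff.2 fun ε hε => ?_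
  obtain ⟨b, hb⟩ := cfcₙ_near_mul f a (half_pos hε)
  exact ⟨_, ⟨b, rfl⟩, by rw [dist_eq_norm]; linarith⟩

lemma RMem.mem {J : Submodule ℂ A} (hJ : IsClosedIdeal A J) {a p : A} (ha : a ∈ J)
    (h : RMem a p) : p ∈ J :=
  h.of_closed hJ.1 fun w => (hJ.2 w a ha).2

/-- The function used for approximate units. -/
noncomputable def unitFun (ε : ℝ) : ℝ → ℝ := fun t => max t 0 / (max t 0 + ε)

lemma continuous_unitFun {ε : ℝ} (hε : 0 < ε) : Continuous (unitFun ε) :=
  (continuous_id.max continuous_const).div₀ (by fun_prop) fun t => by positivity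

lemma unitFun_zero (ε : ℝ) : unitFun ε 0 = 0 := by simp [unitFun]

lemma norm_unit_le {ε : ℝ} (hε : 0 < ε) (S : A) : ‖cfcₙ (unitFun ε) S‖ ≤ 1 := by
  refine norm_cfcₙ_le fun t _ => ?_
  rw [Real.norm_eq_abs, abs_of_nonneg (by unfold unitFun; positivity)]
  exact (div_le_one (by positivity)).2 (by linarith)

lemma unit_error {ε : ℝ} (hε : 0 < ε) {S : A} (hS : 0 ≤ S) :
    ‖S - cfcₙ (unitFun ε) S * S - S * cfcₙ (unitFun ε) S
      + cfcₙ (unitFun ε) S * S * cfcₙ (unitFun ε) S‖ ≤ ε := by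
  have hc := (continuous_unitFun hε).continuousOn (s := quasispectrum ℝ S)
  have h0 := unitFun_zero ε
  have hid : cfcₙ (fun t : ℝ => t) S = S := cfcₙ_id' ℝ S
  have e : S - cfcₙ (unitFun ε) S * S - S * cfcₙ (unitFun ε) S
      + cfcₙ (unitFun ε) S * S * cfcₙ (unitFun ε) S
      = cfcₙ (fun t => t - unitFun ε t * t - t * unitFun ε t
          + unitFun ε t * t * unitFun ε t) S := by
    rw [cfcₙ_add .., cfcₙ_sub .., cfcₙ_sub .., cfcₙ_mul .., cfcₙ_mul .., cfcₙ_mul ..,
      cfcₙ_mul .., hid]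
  rw [e]
  refine norm_cfcₙ_le fun t ht => ?_
  have ht0 : 0 ≤ t := quasispectrum_nonneg_of_nonneg S hS t ht
  have hd : 0 < t + ε := by positivity
  have e2 : t - unitFun ε t * t - t * unitFun ε t + unitFun ε t * t * unitFun ε t
      = ε * ((t / (t + ε)) * (ε / (t + ε))) := by
    simp only [unitFun, max_eq_left ht0]; field_simp; ring
  have u1 : t / (t + ε) ≤ 1 := (div_le_one hd).2 (by linarith)
  have u2 : ε / (t + ε) ≤ 1 := (div_le_one hd).2 (by linarith)
  rw [e2, Real.norm_eq_abs, abs_of_nonneg (by positivity)]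
  nlinarith [mul_le_one₀ u1 (by positivity : (0:ℝ) ≤ ε / (t + ε)) u2]

open scoped CStarAlgebra in
open Unitization in
/-- The approximate unit of `S` is a right unit for every `a` with `star a * a ≤ S`. -/
lemma norm_sub_mul_unit_le {ε : ℝ} (hε : 0 < ε) {S a : A} (ha : star a * a ≤ S) :
    ‖a - a * cfcₙ (unitFun ε) S‖ ≤ √ε := by
  have hS : 0 ≤ S := (star_mul_self_nonneg a).trans ha
  set u := cfcₙ (unitFun ε) S with hu
  have hus : star u = u := (IsSelfAdjoint.cfcₙ).star_eq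
  refine Real.le_sqrt_of_sq_le ?_
  rw [sq, ← CStarRing.norm_star_mul_self]
  refine le_trans ?_ (hu ▸ unit_error hε hS)
  rw [← norm_inr (𝕜 := ℂ), ← norm_inr (𝕜 := ℂ) (a := S - u * S - S * u + u * S * u)]
  have e1 : ((star (a - a * u) * (a - a * u) : A) : A⁺¹)
      = star (1 - (u : A⁺¹)) * ((star a * a : A) : A⁺¹) * (1 - (u : A⁺¹)) := by
    have hus' : star (u : A⁺¹) = u := by rw [← inr_star, hus]
    simp only [star_sub, star_mul, hus, hus', inr_mul, inr_sub, star_one]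
    noncomm_ring
  have e2 : ((S - u * S - S * u + u * S * u : A) : A⁺¹)
      = star (1 - (u : A⁺¹)) * (S : A⁺¹) * (1 - (u : A⁺¹)) := by
    rw [star_sub, star_one, ← inr_star, hus]
    simp only [inr_mul, inr_sub, inr_add]
    noncomm_ring
  rw [e1, e2]
  have hle : ((star a * a : A) : A⁺¹) ≤ (S : A⁺¹) :=
    (inr_le_iff _ _ (IsSelfAdjoint.star_mul_self a) hS.isSelfAdjoint).2 ha
  exact CStarAlgebra.norm_le_norm_of_nonneg_of_le
    (star_left_conjugate_nonneg ((inr_nonneg_iff).2 (star_mul_self_nonneg a)) _)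
    (star_left_conjugate_le_conjugate hle _)

lemma near_unit {S : A} {ε : ℝ} (hε : 0 < ε) :
    ∃ u : A, RMem S u ∧ star u = u ∧ ‖u‖ ≤ 1 ∧
      ∀ a : A, star a * a ≤ S → ‖a - a * u‖ ≤ ε := by
  refine ⟨cfcₙ (unitFun (ε ^ 2)) S, rmem_cfcₙ _ _, (IsSelfAdjoint.cfcₙ).star_eq,
    norm_unit_le (by positivity) S, fun a ha => ?_⟩
  simpa [Real.sqrt_sq hε.le] using norm_sub_mul_unit_le (by positivity : 0 < ε ^ 2) ha

lemma rmem_self (a : A) : RMem a a := by
  refine Metric.mem_closure_iff.2 fun ε hε => ?_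
  obtain ⟨u, -, -, -, hh⟩ := near_unit (S := star a * a) (half_pos hε)
  exact ⟨_, ⟨u, rfl⟩, by rw [dist_eq_norm]; linarith [hh a le_rfl]⟩

lemma RMem.smul {a p : A} (h : RMem a p) (r : ℂ) : RMem a (r • p) :=
  map_mem_closure (f := fun q => r • q) (by fun_prop) h
    (by rintro _ ⟨v, rfl⟩; exact ⟨r • v, mul_smul_comm r a v⟩)

lemma RMem.star_mul_eq_zero_self {a b : A} (ha : star a = a) (h : a * b = 0) {p q : A}
    (hp : RMem a p) (hq : RMem b q) : star p * q = 0 :=
  RMem.star_mul_eq_zero (by rwa [ha]) hp hq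

lemma IsClosedIdeal.mem_of_forall_near {J : Submodule ℂ A} (hJ : IsClosedIdeal A J) {a : A}
    (h : ∀ ε > 0, ∃ j ∈ J, ‖a - j‖ ≤ ε) : a ∈ J := by
  refine hJ.1.closure_subset (Metric.mem_closure_iff.2 fun ε hε => ?_)
  obtain ⟨j, hj, hd⟩ := h (ε / 2) (half_pos hε)
  exact ⟨j, hj, by rw [dist_eq_norm]; linarith⟩

lemma IsClosedIdeal.mem_of_star_mul_le {J : Submodule ℂ A} (hJ : IsClosedIdeal A J) {S a : A}
    (hS : S ∈ J) (ha : star a * a ≤ S) : a ∈ J := by
  refine hJ.mem_of_forall_near fun ε hε => ?_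
  obtain ⟨u, hu, -, -, hh⟩ := near_unit (S := S) hε
  exact ⟨a * u, (hJ.2 a u (hu.mem hJ hS)).1, hh a ha⟩

lemma IsClosedIdeal.star_mem {J : Submodule ℂ A} (hJ : IsClosedIdeal A J) {a : A} (ha : a ∈ J) :
    star a ∈ J := by
  refine hJ.mem_of_forall_near fun ε hε => ?_
  obtain ⟨u, hu, hs, -, hh⟩ := near_unit (S := star a * a) hε
  refine ⟨u * star a, (hJ.2 (star a) u (hu.mem hJ (hJ.2 (star a) a ha).1)).2, ?_⟩
  simpa [← norm_star (a - a * u), star_sub, star_mul, hs] using hh a le_rfl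

lemma IsClosedIdeal.mem_of_nonneg_of_le {J : Submodule ℂ A} (hJ : IsClosedIdeal A J) {x j : A}
    (hx : 0 ≤ x) (hxj : x ≤ j) (hj : j ∈ J) : x ∈ J := by
  have hs : star (CFC.sqrt x) = CFC.sqrt x := (CFC.sqrt_nonneg x).isSelfAdjoint.star_eq
  have he : star (CFC.sqrt x) * CFC.sqrt x = x := by rw [hs, CFC.sqrt_mul_sqrt_self x hx]
  have := hJ.mem_of_star_mul_le hj (a := CFC.sqrt x) (he.le.trans hxj)
  have := (hJ.2 (star (CFC.sqrt x)) _ this).1
  rwa [he] at this

lemma exists_near_sandwich (a : A) {ε : ℝ} (hε : 0 < ε) :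
    ∃ v u : A, ‖a - v * a * u‖ ≤ ε := by
  obtain ⟨u, -, -, hu1, hh⟩ := near_unit (S := star a * a) (half_pos hε)
  obtain ⟨v, -, hs, -, hh'⟩ := near_unit (S := a * star a) (half_pos hε)
  refine ⟨v, u, ?_⟩
  have h1 : ‖a - a * u‖ ≤ ε / 2 := hh a le_rfl
  have h2 : ‖a - v * a‖ ≤ ε / 2 := by
    simpa [← norm_star (star a - star a * v), star_sub, star_mul, hs] using
      hh' (star a) (by simp)
  calc ‖a - v * a * u‖ = ‖(a - a * u) + (a - v * a) * u‖ := by
        congr 1; noncomm_ring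
    _ ≤ ‖a - a * u‖ + ‖a - v * a‖ * ‖u‖ :=
        (norm_add_le _ _).trans (add_le_add le_rfl (norm_mul_le _ _))
    _ ≤ ε / 2 + ε / 2 * 1 := add_le_add h1 (mul_le_mul h2 hu1 (norm_nonneg _) (by linarith))
    _ = ε := by ring

/-- The closed two-sided ideal generated by a set. -/
def gen (S : Set A) : Submodule ℂ A :=
  (Submodule.span ℂ {z : A | ∃ x, ∃ s ∈ S, ∃ y, z = x * s * y}).topologicalClosure

lemma isClosedIdeal_gen (S : Set A) : IsClosedIdeal A (gen S) := by
  refine ⟨Submodule.isClosed_topologicalClosure _, fun a j hj => ?_⟩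
  set M := Submodule.span ℂ {z : A | ∃ x, ∃ s ∈ S, ∃ y, z = x * s * y}
  have hM : ∀ z ∈ M, a * z ∈ M ∧ z * a ∈ M := by
    intro z hz
    induction hz using Submodule.span_induction with
    | mem z hz =>
      obtain ⟨x, s, hs, y, rfl⟩ := hz
      exact ⟨Submodule.subset_span ⟨a * x, s, hs, y, by simp [mul_assoc]⟩,
        Submodule.subset_span ⟨x, s, hs, y * a, by simp [mul_assoc]⟩⟩
    | zero => simp
    | add u v _ _ hu hv =>
      exact ⟨by rw [mul_add]; exact add_mem hu.1 hv.1, by rw [add_mul]; exact add_mem hu.2 hv.2⟩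
    | smul c u _ hu =>
      exact ⟨by rw [mul_smul_comm]; exact M.smul_mem c hu.1,
        by rw [smul_mul_assoc]; exact M.smul_mem c hu.2⟩
  have hj' : j ∈ closure (M : Set A) := hj
  exact ⟨map_mem_closure (f := fun z => a * z) (by fun_prop) hj' fun z hz => (hM z hz).1,
    map_mem_closure (f := fun z => z * a) (by fun_prop) hj' fun z hz => (hM z hz).2⟩

lemma subset_gen {S : Set A} {s : A} (hs : s ∈ S) : s ∈ gen S := by
  refine (isClosedIdeal_gen S).mem_of_forall_near fun ε hε => ?_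
  obtain ⟨v, u, h⟩ := exists_near_sandwich s hε
  exact ⟨v * s * u, Submodule.le_topologicalClosure _ (Submodule.subset_span ⟨v, s, hs, u, rfl⟩),
    h⟩

lemma gen_le {S : Set A} {J : Submodule ℂ A} (hJ : IsClosedIdeal A J) (h : ∀ s ∈ S, s ∈ J) :
    gen S ≤ J :=
  Submodule.topologicalClosure_minimal _ (Submodule.span_le.2 (by
    rintro _ ⟨x, s, hs, y, rfl⟩
    exact (hJ.2 y _ (hJ.2 x s (h s hs)).1).2)) hJ.1

/-- `(t - κ)₊`. -/
noncomputable def cutFun (κ : ℝ) : ℝ → ℝ := fun t => max (t - max κ 0) 0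

lemma continuous_cutFun (κ : ℝ) : Continuous (cutFun κ) := by unfold cutFun; fun_prop

lemma cutFun_zero (κ : ℝ) : cutFun κ 0 = 0 := by simp [cutFun]

lemma cutFun_nonneg (κ t : ℝ) : 0 ≤ cutFun κ t := le_max_right _ _

/-- The element `(T - κ)₊`. -/
noncomputable def cut (κ : ℝ) (T : A) : A := cfcₙ (cutFun κ) T

lemma cut_nonneg (κ : ℝ) (T : A) : 0 ≤ cut κ T := cfcₙ_nonneg fun t _ => cutFun_nonneg κ t

lemma rmem_cut (κ : ℝ) (T : A) : RMem T (cut κ T) := rmem_cfcₙ _ _

lemma norm_sub_cut_le {κ : ℝ} (hκ : 0 ≤ κ) {T : A} (hT : 0 ≤ T) : ‖T - cut κ T‖ ≤ κ := by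
  have hid : cfcₙ (fun t : ℝ => t) T = T := cfcₙ_id' ℝ T
  rw [cut]
  nth_rw 1 [← hid]
  rw [← cfcₙ_sub (fun t => t) _ T (by fun_prop) (by simp)
    (continuous_cutFun κ).continuousOn (cutFun_zero κ)]
  refine norm_cfcₙ_le fun t ht => ?_
  have ht0 := quasispectrum_nonneg_of_nonneg T hT t ht
  rw [Real.norm_eq_abs, cutFun, max_eq_left hκ, abs_le]
  constructor <;> rcases le_total (t - κ) 0 with h | h
  all_goals first
    | rw [max_eq_right h]; linarith
    | rw [max_eq_left h]; linarith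

lemma infDist_le_of_cut_mem {J : Submodule ℂ A} {κ : ℝ} (hκ : 0 ≤ κ) {T : A} (hT : 0 ≤ T)
    (h : cut κ T ∈ J) : Metric.infDist T (J : Set A) ≤ κ :=
  (Metric.infDist_le_dist_of_mem h).trans ((dist_eq_norm _ _).le.trans (norm_sub_cut_le hκ hT))

lemma IsClosedIdeal.cut_mem {J : Submodule ℂ A} (hJ : IsClosedIdeal A J) {κ : ℝ} {T : A}
    (hT : 0 ≤ T) (h : Metric.infDist T (J : Set A) < κ) : cut κ T ∈ J := by
  obtain ⟨j₀, hj₀, hd⟩ := (Metric.infDist_lt_iff ⟨0, J.zero_mem⟩).1 h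
  have hκ : 0 < κ := lt_of_le_of_lt dist_nonneg hd
  set j : A := (2⁻¹ : ℂ) • (j₀ + star j₀) with hj
  have hjJ : j ∈ J := J.smul_mem _ (add_mem hj₀ (hJ.star_mem hj₀))
  have hjs : star j = j := by rw [hj, star_smul, star_add, star_star, add_comm (star j₀)]; norm_num
  have hTs : star T = T := hT.isSelfAdjoint.star_eq
  have hdj : ‖T - j‖ ≤ dist T j₀ := by
    have e : T - j = (2⁻¹ : ℂ) • ((T - j₀) + star (T - j₀)) := by
      rw [star_sub, hTs, hj]; module
    rw [e, norm_smul, dist_eq_norm]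
    have h2 : ‖(2⁻¹ : ℂ)‖ = 2⁻¹ := by simp
    have h3 := norm_add_le (T - j₀) (star (T - j₀))
    rw [norm_star] at h3
    rw [h2]
    linarith
  set κ' := dist T j₀
  set f := cut κ T with hf
  have hfs : star f = f := (IsSelfAdjoint.cfcₙ).star_eq
  have h1 : f * (T - j) * f ≤ κ' • (f * f) := by
    have := CStarAlgebra.star_left_conjugate_le_norm_smul (a := f) (b := T - j)
      (by rw [IsSelfAdjoint, star_sub, hTs, hjs])
    rw [hfs] at this
    refine this.trans ?_
    exact smul_le_smul_of_nonneg_right hdj (by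
      conv_rhs => arg 1; rw [← hfs]
      exact star_mul_self_nonneg f)
  have h2 : κ • (f * f) ≤ f * T * f := by
    have hid : cfcₙ (fun t : ℝ => t) T = T := cfcₙ_id' ℝ T
    have hc := (continuous_cutFun κ).continuousOn (s := quasispectrum ℝ T)
    have h0 := cutFun_zero κ
    rw [hf, cut]
    nth_rw 4 [← hid]
    rw [← cfcₙ_mul .., ← cfcₙ_mul .., ← cfcₙ_mul .., ← cfcₙ_smul ..]
    refine cfcₙ_mono fun t ht => ?_
    simp only [smul_eq_mul, cutFun, max_eq_left hκ.le]
    rcases le_total (t - κ) 0 with h | h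
    · rw [max_eq_right h]; simp
    · rw [max_eq_left h]; nlinarith [mul_self_nonneg (t - κ)]
  have h3 : (κ - κ') • (f * f) ≤ f * j * f := by
    have e : f * j * f = f * T * f - f * (T - j) * f := by noncomm_ring
    rw [sub_smul, e]
    exact sub_le_sub h2 h1
  have hmem : (κ - κ')⁻¹ • (f * j * f) ∈ J := by
    have := J.smul_mem (((κ - κ')⁻¹ : ℝ) : ℂ) ((hJ.2 f _ (hJ.2 f j hjJ).1).2)
    rwa [Complex.coe_smul] at this
  have hpos : 0 < κ - κ' := sub_pos.2 hd
  refine hJ.mem_of_star_mul_le hmem ?_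
  rw [hfs]
  calc f * f = (κ - κ')⁻¹ • ((κ - κ') • (f * f)) := by rw [inv_smul_smul₀ hpos.ne']
    _ ≤ _ := smul_le_smul_of_nonneg_left h3 (by positivity)

/-- A prime closed ideal. -/
def IsPrimeIdeal (P : Submodule ℂ A) : Prop :=
  IsClosedIdeal A P ∧ ∀ a b : A, (∀ c, a * c * b ∈ P) → a ∈ P ∨ b ∈ P

lemma IsClosedIdeal.inf {I J : Submodule ℂ A} (hI : IsClosedIdeal A I) (hJ : IsClosedIdeal A J) :
    IsClosedIdeal A (I ⊓ J) :=
  ⟨hI.1.inter hJ.1, fun a j hj => ⟨⟨(hI.2 a j hj.1).1, (hJ.2 a j hj.2).1⟩,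
    ⟨(hI.2 a j hj.1).2, (hJ.2 a j hj.2).2⟩⟩⟩

lemma exists_prime_of_le_infDist {G : Submodule ℂ A} (hG : IsClosedIdeal A G) {T : A}
    (hT : 0 ≤ T) {η : ℝ} (hη : 0 < η) (h : η ≤ Metric.infDist T (G : Set A)) :
    ∃ P, IsPrimeIdeal P ∧ G ≤ P ∧ η ≤ Metric.infDist T (P : Set A) := by
  obtain ⟨P, hGP, hmax⟩ := zorn_le_nonempty₀
    {P : Submodule ℂ A | IsClosedIdeal A P ∧ η ≤ Metric.infDist T (P : Set A)}
    (fun c hc hchain y hy => by
      have hdir : DirectedOn (· ≤ ·) c := hchain.directedOn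
      have hne : c.Nonempty := ⟨y, hy⟩
      refine ⟨(sSup c).topologicalClosure, ⟨⟨Submodule.isClosed_topologicalClosure _, ?_⟩, ?_⟩,
        fun z hz => (le_sSup hz).trans (Submodule.le_topologicalClosure _)⟩
      · intro a j hj
        have hM : ∀ z ∈ sSup c, a * z ∈ sSup c ∧ z * a ∈ sSup c := by
          intro z hz
          obtain ⟨q, hq, hzq⟩ := (Submodule.mem_sSup_of_directed hne hdir).1 hz
          exact ⟨le_sSup hq ((hc hq).1.2 a z hzq).1, le_sSup hq ((hc hq).1.2 a z hzq).2⟩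
        have hj' : j ∈ closure ((sSup c : Submodule ℂ A) : Set A) := hj
        exact ⟨map_mem_closure (f := fun z => a * z) (by fun_prop) hj' fun z hz => (hM z hz).1,
          map_mem_closure (f := fun z => z * a) (by fun_prop) hj' fun z hz => (hM z hz).2⟩
      · rw [Submodule.topologicalClosure_coe, Metric.infDist_closure]
        refine (Metric.le_infDist ⟨0, Submodule.zero_mem _⟩).2 fun z hz => ?_
        obtain ⟨q, hq, hzq⟩ := (Submodule.mem_sSup_of_directed hne hdir).1 hz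
        exact (hc hq).2.trans (Metric.infDist_le_dist_of_mem hzq))
    G ⟨hG, h⟩
  obtain ⟨hP, hPd⟩ := hmax.prop
  refine ⟨P, ⟨hP, fun a b hab => ?_⟩, hGP, hPd⟩
  by_contra hcon
  push Not at hcon
  obtain ⟨ha, hb⟩ := hcon
  let I1 : Submodule ℂ A :=
    { carrier := {b' | ∀ c, a * c * b' ∈ P}
      zero_mem' := fun c => by simp
      add_mem' := fun h1 h2 c => by rw [mul_add]; exact add_mem (h1 c) (h2 c)
      smul_mem' := fun r _ h1 c => by rw [mul_smul_comm]; exact P.smul_mem r (h1 c) }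
  have hI1 : IsClosedIdeal A I1 := by
    refine ⟨?_, fun r e he => ⟨fun c => ?_, fun c => ?_⟩⟩
    · have : (I1 : Set A) = ⋂ c, (fun b' => a * c * b') ⁻¹' (P : Set A) := by
        ext; simp only [Set.mem_iInter, Set.mem_preimage, SetLike.mem_coe]; rfl
      rw [this]
      exact isClosed_iInter fun c => hP.1.preimage (by fun_prop)
    · have := he (c * r)
      rwa [← mul_assoc a c r, mul_assoc (a * c)] at this
    · simpa [mul_assoc] using (hP.2 r _ (he c)).2
  let I2 : Submodule ℂ A :=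
    { carrier := {d | ∀ c, ∀ e ∈ I1, d * c * e ∈ P}
      zero_mem' := fun c e _ => by simp
      add_mem' := fun h1 h2 c e he => by
        rw [add_mul, add_mul]; exact add_mem (h1 c e he) (h2 c e he)
      smul_mem' := fun r _ h1 c e he => by
        rw [smul_mul_assoc, smul_mul_assoc]; exact P.smul_mem r (h1 c e he) }
  have hI2 : IsClosedIdeal A I2 := by
    refine ⟨?_, fun r d hd => ⟨fun c e he => ?_, fun c e he => ?_⟩⟩
    · have : (I2 : Set A) = ⋂ c, ⋂ e : I1, (fun d => d * c * (e : A)) ⁻¹' (P : Set A) := by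
        ext
        simp only [Set.mem_iInter, Set.mem_preimage, SetLike.mem_coe, Subtype.forall]
        rfl
      rw [this]
      exact isClosed_iInter fun c => isClosed_iInter fun e => hP.1.preimage (by fun_prop)
    · simpa [mul_assoc] using (hP.2 r _ (hd c e he)).1
    · simpa [mul_assoc] using hd (r * c) e he
  have h1 : P ≤ I1 := fun e he c => (hP.2 (a * c) e he).1
  have h2 : P ≤ I2 := fun d hd c e _ => (hP.2 e _ (hP.2 c d hd).2).2
  have small : ∀ I, IsClosedIdeal A I → P ≤ I → (∃ z ∈ I, z ∉ P) →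
      Metric.infDist T (I : Set A) < η := by
    intro I hI hPI ⟨z, hz, hzP⟩
    by_contra hcon
    exact hzP (hmax.2 ⟨hI, not_lt.1 hcon⟩ hPI hz)
  have d1 := small I1 hI1 h1 ⟨b, hab, hb⟩
  have d2 := small I2 hI2 h2 ⟨a, fun c e he => he c, ha⟩
  obtain ⟨θ, hθ1, hθ2⟩ := exists_between (max_lt d1 d2)
  have hθ0 : 0 ≤ θ := le_trans (le_max_of_le_left Metric.infDist_nonneg) hθ1.le
  set f := cut θ T with hf
  have f1 : f ∈ I1 := hI1.cut_mem hT (lt_of_le_of_lt (le_max_left _ _) hθ1)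
  have f2 : f ∈ I2 := hI2.cut_mem hT (lt_of_le_of_lt (le_max_right _ _) hθ1)
  have hff : f * f ∈ P := by
    refine hP.mem_of_forall_near fun ε hε => ?_
    have hε' : 0 < ε / (‖f‖ + 1) := by positivity
    obtain ⟨u, -, -, -, hu⟩ := near_unit (S := star f * f) hε'
    refine ⟨f * u * f, f2 u f f1, ?_⟩
    rw [← sub_mul]
    calc ‖(f - f * u) * f‖ ≤ ε / (‖f‖ + 1) * ‖f‖ :=
          (norm_mul_le _ _).trans (mul_le_mul_of_nonneg_right (hu f le_rfl) (norm_nonneg _))
      _ ≤ ε / (‖f‖ + 1) * (‖f‖ + 1) := mul_le_mul_of_nonneg_left (by linarith) hε'.le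
      _ = ε := div_mul_cancel₀ _ (by positivity)
  have hfP : f ∈ P := hP.mem_of_star_mul_le hff
    (by rw [(cut_nonneg θ T).isSelfAdjoint.star_eq])
  have := infDist_le_of_cut_mem hθ0 hT hfP
  linarith

lemma infDist_le_of_forall_prime {G : Submodule ℂ A} (hG : IsClosedIdeal A G) {T : A}
    (hT : 0 ≤ T) {η : ℝ} (hη : 0 ≤ η)
    (h : ∀ P, IsPrimeIdeal P → G ≤ P → Metric.infDist T (P : Set A) ≤ η) :
    Metric.infDist T (G : Set A) ≤ η := by
  by_contra hcon
  push Not at hcon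
  obtain ⟨P, hP, hGP, hd⟩ := exists_prime_of_le_infDist hG hT (hη.trans_lt hcon) le_rfl
  exact absurd (h P hP hGP) (not_le.2 (hcon.trans_le hd))

end Vale.Agent.P133
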