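import Vale.Agent.P133.Split

/-!
Pairs separated up to a given angle, valid at a given prime ideal.
-/

set_option linter.unusedSectionVars false

namespace Vale.Agent.P133

variable {A : Type*} [NonUnitalCStarAlgebra A] [PartialOrder A] [StarOrderedRing A]

/-- The closed right ideals of `a` and `b` are separated up to `δ`. -/
def Sep (δ : ℝ) (a b : A) : Prop :=
  ∀ p q : A, RMem a p → RMem b q → ‖star p * q‖ ≤ δ * ‖p‖ * ‖q‖

lemma Sep.symm {δ : ℝ} {a b : A} (h : Sep δ a b) : Sep δ b a := fun p q hp hq => by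
  rw [← norm_star, star_mul, star_star]
  linarith [h q p hq hp]

/-- A ramp which is `1` above `2κ` and `0` below `κ`. -/
noncomputable def rampFun (κ : ℝ) : ℝ → ℝ := fun t => min 1 (max (t - max κ 0) 0 / κ)

lemma continuous_rampFun (κ : ℝ) : Continuous (rampFun κ) := by unfold rampFun; fun_prop

lemma rampFun_zero (κ : ℝ) : rampFun κ 0 = 0 := by simp [rampFun]

/-- The ramp of an element. -/
noncomputable def ramp (κ : ℝ) (T : A) : A := cfcₙ (rampFun κ) T

lemma star_ramp (κ : ℝ) (T : A) : star (ramp κ T) = ramp κ T := (IsSelfAdjoint.cfcₙ).star_eq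

lemma norm_ramp_le {κ : ℝ} (hκ : 0 < κ) (T : A) : ‖ramp κ T‖ ≤ 1 := by
  refine norm_cfcₙ_le fun t _ => ?_
  rw [Real.norm_eq_abs, rampFun, abs_of_nonneg (le_min zero_le_one (by positivity))]
  exact min_le_left _ _

lemma ramp_mul_cut {κ : ℝ} (hκ : 0 < κ) {T : A} (hT : 0 ≤ T) :
    ramp κ T * cut (2 * κ) T = cut (2 * κ) T := by
  rw [ramp, cut, ← cfcₙ_mul _ _ T (continuous_rampFun κ).continuousOn (rampFun_zero κ)
    (continuous_cutFun _).continuousOn (cutFun_zero _)]
  refine cfcₙ_congr fun t _ => ?_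
  simp only [rampFun, cutFun, max_eq_left hκ.le, max_eq_left (by positivity : (0:ℝ) ≤ 2 * κ)]
  rcases le_total (t - 2 * κ) 0 with h | h
  · simp [max_eq_right h]
  · rw [max_eq_left h, max_eq_left (by linarith : (0:ℝ) ≤ t - κ),
      min_eq_left ((one_le_div hκ).2 (by linarith)), one_mul]

lemma ramp_mem {J : Submodule ℂ A} (hJ : IsClosedIdeal A J) {κ : ℝ} (hκ : 0 < κ) {T : A}
    (hT : 0 ≤ T) (h : cut κ T ∈ J) : ramp κ T ∈ J := by
  have hS : (κ⁻¹ : ℝ) • cut κ T ∈ J := by
    have := J.smul_mem ((κ⁻¹ : ℝ) : ℂ) h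
    rwa [Complex.coe_smul] at this
  refine hJ.mem_of_star_mul_le hS ?_
  rw [star_ramp, ramp, cut, ← cfcₙ_mul _ _ T (continuous_rampFun κ).continuousOn (rampFun_zero κ)
    (continuous_rampFun κ).continuousOn (rampFun_zero κ),
    ← cfcₙ_smul _ _ T (continuous_cutFun κ).continuousOn (cutFun_zero κ)]
  refine cfcₙ_mono (hf := ((continuous_rampFun κ).mul (continuous_rampFun κ)).continuousOn)
    (hg := ((continuous_cutFun κ).const_smul κ⁻¹).continuousOn)
    (hf0 := by simp [rampFun_zero]) (hg0 := by simp [cutFun_zero]) (fun t _ => ?_)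
  simp only [rampFun, cutFun, max_eq_left hκ.le, smul_eq_mul]
  have hm : 0 ≤ max (t - κ) 0 / κ := by positivity
  calc _ ≤ 1 * (max (t - κ) 0 / κ) :=
        mul_le_mul (min_le_left _ _) (min_le_right _ _) (le_min zero_le_one hm) zero_le_one
    _ = κ⁻¹ * max (t - κ) 0 := by rw [one_mul, div_eq_inv_mul]

/-- The quadratic form measuring how much `D` is seen by `F`. -/
noncomputable def resForm (c : ℝ) (D F : A) : A := c • (D * D) - D * (F * F) * D

/-- The residual of `D` against `F`. -/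
noncomputable def res (c : ℝ) (D F : A) : A :=
  D * cfcₙ (fun t : ℝ => √(max t 0)) (resForm c D F)

lemma resForm_isSelfAdjoint {c : ℝ} {D F : A} (hD : star D = D) (hF : star F = F) :
    IsSelfAdjoint (resForm c D F) := by
  simp [IsSelfAdjoint, resForm, star_sub, star_smul, star_mul, hD, hF, mul_assoc]

lemma res_identity {c : ℝ} {D F : A} (hD : star D = D) (hF : star F = F) :
    c • (star (res c D F) * res c D F) - star (F * res c D F) * (F * res c D F)
      = star (cfcₙ (fun t : ℝ => max t 0) (resForm c D F))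
          * cfcₙ (fun t : ℝ => max t 0) (resForm c D F) := by
  have hK := resForm_isSelfAdjoint (c := c) hD hF
  set K := resForm c D F with hKdef
  set s := cfcₙ (fun t : ℝ => √(max t 0)) K with hs
  have hss : star s = s := (IsSelfAdjoint.cfcₙ).star_eq
  have e1 : c • (star (res c D F) * res c D F) - star (F * res c D F) * (F * res c D F)
      = s * K * s := by
    simp only [res, ← hKdef, ← hs, star_mul, hss, hD, hF]
    simp only [hKdef, resForm, mul_sub, sub_mul, mul_smul_comm, smul_mul_assoc, mul_assoc]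
  rw [e1, (IsSelfAdjoint.cfcₙ).star_eq, hs]
  nth_rw 2 [← cfcₙ_id' ℝ K]
  rw [← cfcₙ_mul .., ← cfcₙ_mul .., ← cfcₙ_mul ..]
  refine cfcₙ_congr fun t _ => ?_
  rcases le_total t 0 with h | h
  · simp [max_eq_right h]
  · rw [max_eq_left h]
    calc √t * t * √t = (√t * √t) * t := by ring
      _ = t * t := by rw [Real.mul_self_sqrt h]

lemma res_kill {c : ℝ} (hc : 0 ≤ c) {D F : A} (hD : star D = D) (hF : star F = F) {p : A}
    (hp : RMem (res c D F) p) : ‖F * p‖ ≤ √c * ‖p‖ := by
  refine hp.of_closed (S := {p | ‖F * p‖ ≤ √c * ‖p‖}) (isClosed_le (by fun_prop) (by fun_prop))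
    fun w => ?_
  simp only [Set.mem_ofPred_eq]
  set u := res c D F
  have h0 : star (F * u) * (F * u) ≤ c • (star u * u) := by
    rw [← sub_nonneg, res_identity hD hF]
    exact star_mul_self_nonneg _
  have h1 := star_left_conjugate_le_conjugate h0 w
  have h2 : star (F * (u * w)) * (F * (u * w)) ≤ c • (star (u * w) * (u * w)) := by
    simpa [star_mul, mul_assoc, mul_smul_comm, smul_mul_assoc] using h1
  have h3 := CStarAlgebra.norm_le_norm_of_nonneg_of_le (star_mul_self_nonneg _) h2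
  rw [CStarRing.norm_star_mul_self, norm_smul, CStarRing.norm_star_mul_self,
    Real.norm_eq_abs, abs_of_nonneg hc] at h3
  calc ‖F * (u * w)‖ = √(‖F * (u * w)‖ * ‖F * (u * w)‖) :=
        (Real.sqrt_mul_self (norm_nonneg _)).symm
    _ ≤ √(c * (‖u * w‖ * ‖u * w‖)) := Real.sqrt_le_sqrt h3
    _ = √c * ‖u * w‖ := by rw [Real.sqrt_mul hc, Real.sqrt_mul_self (norm_nonneg _)]

lemma posPart_mem_of_res_mem {P : Submodule ℂ A} (hP : IsClosedIdeal A P) {c : ℝ} {D F : A}
    (hD : star D = D) (hF : star F = F) (h : res c D F ∈ P) :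
    cfcₙ (fun t : ℝ => max t 0) (resForm c D F) ∈ P := by
  have hm : c • (star (res c D F) * res c D F) - star (F * res c D F) * (F * res c D F) ∈ P := by
    refine sub_mem ?_ ((hP.2 _ _ ((hP.2 F _ h).1)).1)
    have := P.smul_mem (c : ℂ) (hP.2 (star (res c D F)) _ h).1
    rwa [Complex.coe_smul] at this
  rw [res_identity hD hF] at hm
  exact hP.mem_of_star_mul_le hm le_rfl

lemma exists_res_notMem {P : Submodule ℂ A} (hP : IsClosedIdeal A P) {c : ℝ} {D : A}
    (hD : star D = D) (hDP : D ∉ P) {ι : Type*} [Fintype ι] (F : ι → A)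
    (hF : ∀ k, star (F k) = F k) (G : A)
    (hG : D * (∑ k, F k * F k) * D ≤ G) {r : ℝ} (hr : r < c * Fintype.card ι)
    (hGle : G - r • (D * D) ∈ P) : ∃ k, res c D (F k) ∉ P := by
  by_contra hcon
  push Not at hcon
  set Kp := fun k => cfcₙ (fun t : ℝ => max t 0) (resForm c D (F k))
  have hKp : ∀ k, resForm c D (F k) ≤ Kp k := fun k => by
    have hK := resForm_isSelfAdjoint (c := c) hD (hF k)
    nth_rw 1 [← cfcₙ_id' ℝ (resForm c D (F k))]
    exact cfcₙ_mono fun t _ => le_max_left t 0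
  have hsum : ∑ k, resForm c D (F k) ≤ ∑ k, Kp k := Finset.sum_le_sum fun k _ => hKp k
  have hexp : ∑ k, resForm c D (F k)
      = (c * Fintype.card ι) • (D * D) - D * (∑ k, F k * F k) * D := by
    simp only [resForm, Finset.sum_sub_distrib, Finset.mul_sum, Finset.sum_mul, Finset.sum_const,
      Finset.card_univ, ← Nat.cast_smul_eq_nsmul ℝ, smul_smul]
    rw [mul_comm]
  have hle : (c * Fintype.card ι - r) • (D * D) ≤ (∑ k, Kp k) + (G - r • (D * D)) := by
    rw [hexp, sub_le_iff_le_add] at hsum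
    rw [sub_smul, ← add_sub_assoc]
    exact sub_le_sub_right (hsum.trans (add_le_add le_rfl hG)) _
  have hj : ((c * Fintype.card ι - r)⁻¹ : ℝ) • ((∑ k, Kp k) + (G - r • (D * D))) ∈ P := by
    have := P.smul_mem (((c * Fintype.card ι - r)⁻¹ : ℝ) : ℂ)
      (add_mem (Submodule.sum_mem P (t := Finset.univ) (f := Kp)
        fun k _ => posPart_mem_of_res_mem hP hD (hF k) (hcon k)) hGle)
    rwa [Complex.coe_smul] at this
  have hpos : 0 < c * Fintype.card ι - r := sub_pos.2 hr
  refine hDP (hP.mem_of_star_mul_le hj ?_)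
  rw [hD]
  calc D * D = (c * Fintype.card ι - r)⁻¹ • ((c * Fintype.card ι - r) • (D * D)) := by
        rw [inv_smul_smul₀ hpos.ne']
    _ ≤ _ := smul_le_smul_of_nonneg_left hle (by positivity)

lemma sep_of_kill {δ : ℝ} {a b F : A} (hF : star F = F) (hFb : F * b = b)
    (hk : ∀ p, RMem a p → ‖F * p‖ ≤ δ * ‖p‖) : Sep δ a b := fun p q hp hq => by
  have hq' : F * q = q :=
    hq.of_closed (S := {q | F * q = q}) (isClosed_eq (by fun_prop) continuous_id)
      (fun w => by simp only [Set.mem_ofPred_eq]; rw [← mul_assoc, hFb])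
  calc ‖star p * q‖ = ‖star (F * p) * q‖ := by rw [star_mul, hF, mul_assoc, hq']
    _ ≤ ‖star (F * p)‖ * ‖q‖ := norm_mul_le _ _
    _ ≤ δ * ‖p‖ * ‖q‖ := by rw [norm_star]; gcongr; exact hk p hp

lemma exists_cut_notMem {P : Submodule ℂ A} (hP : IsClosedIdeal A P) {T : A} (hT : 0 ≤ T)
    (hTP : T ∉ P) : ∃ κ : ℝ, 0 < κ ∧ cut (2 * κ) T ∉ P := by
  have hd := (hP.1.notMem_iff_infDist_pos ⟨0, P.zero_mem⟩).1 hTP
  refine ⟨Metric.infDist T (P : Set A) / 4, by positivity, fun h => ?_⟩
  have := infDist_le_of_cut_mem (by positivity) hT h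
  linarith

lemma notMem_of_not_gen_le {Q : Submodule ℂ A} (hQ : IsClosedIdeal A Q) {a : A}
    (h : ¬ gen {a} ≤ Q) : a ∉ Q :=
  fun ha => h (gen_le hQ (by simpa using ha))

lemma local_pair_one_sided {x y : A} (hx : star x = x) (hy : star y = y) {δ η : ℝ} (hδ : 0 < δ)
    (hη : 0 < η) {P : Submodule ℂ A} (hP : IsPrimeIdeal P)
    (hxP : η < Metric.infDist (x * x) (P : Set A))
    (hyP : Metric.infDist (y * y) (P : Set A) < η / 3) :
    ∃ (a b : A) (J : Submodule ℂ A), RMem x a ∧ RMem y b ∧ Sep δ a b ∧ IsClosedIdeal A J ∧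
      ¬ J ≤ P ∧ ∀ Q, IsPrimeIdeal Q → ¬ J ≤ Q →
        (η < Metric.infDist (x * x) (Q : Set A) → a ∉ Q) ∧
        (η < Metric.infDist (y * y) (Q : Set A) → b ∉ Q) := by
  have hTx : 0 ≤ x * x := by have := star_mul_self_nonneg x; rwa [hx] at this
  have hTy : 0 ≤ y * y := by have := star_mul_self_nonneg y; rwa [hy] at this
  have hDP : x * x ∉ P := fun h => by
    rw [Metric.infDist_zero_of_mem (s := (P : Set A)) h] at hxP; linarith
  have hDs : star (x * x) = x * x := hTx.isSelfAdjoint.star_eq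
  set F := ramp (η / 2) (y * y)
  have hFP : F ∈ P :=
    ramp_mem hP.1 (by positivity) hTy (hP.1.cut_mem hTy (lt_of_lt_of_le hyP (by linarith)))
  set a := res (δ ^ 2) (x * x) F
  have haP : a ∉ P := by
    obtain ⟨k, hk⟩ := exists_res_notMem hP.1 hDs hDP (fun _ : Fin 1 => F)
      (fun _ => star_ramp _ _) ((x * x) * (F * F) * (x * x)) (c := δ ^ 2) (r := 0)
      (by simp) (by simp; positivity)
      (by rw [zero_smul, sub_zero]; exact (hP.1.2 _ _ ((hP.1.2 _ _ ((hP.1.2 F F hFP).1)).1)).2)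
    exact hk
  refine ⟨a, cut η (y * y), gen {a}, ((rmem_mul x x).mul _), (rmem_mul y y).trans (rmem_cut _ _),
    ?_, isClosedIdeal_gen _, fun h => haP (h (subset_gen rfl)), fun Q hQ hJ => ⟨fun _ => ?_, ?_⟩⟩
  · refine sep_of_kill (star_ramp (η / 2) (y * y)) ?_ fun p hp => ?_
    · have := ramp_mul_cut (by positivity : 0 < η / 2) hTy
      rwa [show 2 * (η / 2) = η by ring] at this
    · have := res_kill (by positivity) hDs (star_ramp _ _) hp
      rwa [Real.sqrt_sq hδ.le] at this
  · exact notMem_of_not_gen_le hQ.1 hJ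
  · intro h hb
    have := infDist_le_of_cut_mem hη.le hTy hb
    linarith

lemma local_pair (hW : WeaklyPurelyInfinite A) {x y : A} (hx : star x = x) (hy : star y = y)
    {δ η : ℝ} (hδ : 0 < δ) (hη : 0 < η) {P : Submodule ℂ A} (hP : IsPrimeIdeal P)
    (h : η < Metric.infDist (x * x) (P : Set A) ∨ η < Metric.infDist (y * y) (P : Set A)) :
    ∃ (a b : A) (J : Submodule ℂ A), RMem x a ∧ RMem y b ∧ Sep δ a b ∧ IsClosedIdeal A J ∧
      ¬ J ≤ P ∧ ∀ Q, IsPrimeIdeal Q → ¬ J ≤ Q →
        (η < Metric.infDist (x * x) (Q : Set A) → a ∉ Q) ∧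
        (η < Metric.infDist (y * y) (Q : Set A) → b ∉ Q) := by
  by_cases h1 : Metric.infDist (y * y) (P : Set A) < η / 3
  · refine local_pair_one_sided hx hy hδ hη hP (h.resolve_right ?_) h1
    intro h'; linarith
  by_cases h2 : Metric.infDist (x * x) (P : Set A) < η / 3
  · obtain ⟨a, b, J, ha, hb, hs, hJ, hJP, hQ⟩ :=
      local_pair_one_sided hy hx hδ hη hP (h.resolve_left (fun h' => by linarith)) h2
    exact ⟨b, a, J, hb, ha, hs.symm, hJ, hJP, fun Q q1 q2 => ⟨(hQ Q q1 q2).2, (hQ Q q1 q2).1⟩⟩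
  have hTx : 0 ≤ x * x := by have := star_mul_self_nonneg x; rwa [hx] at this
  have hTy : 0 ≤ y * y := by have := star_mul_self_nonneg y; rwa [hy] at this
  have hDP : x * x ∉ P := fun h' =>
    h2 (by rw [Metric.infDist_zero_of_mem (s := (P : Set A)) h']; linarith)
  have hyP : y * y ∉ P := fun h' =>
    h1 (by rw [Metric.infDist_zero_of_mem (s := (P : Set A)) h']; linarith)
  have hDs : star (x * x) = x * x := hTx.isSelfAdjoint.star_eq
  obtain ⟨m, hm⟩ := exists_nat_gt (1 / δ ^ 2)
  obtain ⟨d, hd, hdo⟩ := exists_orth_family hW hP hTy hyP m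
  choose κ hκ hκd using fun k => exists_cut_notMem hP.1 (hd k).1 (hd k).2.2
  set F := fun k => ramp (κ k) (d k)
  have horth : ∀ k l, k ≠ l → F k * F l = 0 := fun k l hkl => by
    have := RMem.star_mul_eq_zero_self (hd k).1.isSelfAdjoint.star_eq (hdo k l hkl)
      (rmem_cfcₙ (rampFun (κ k)) (d k)) (rmem_cfcₙ (rampFun (κ l)) (d l))
    rwa [show star (cfcₙ (rampFun (κ k)) (d k)) = F k from star_ramp _ _] at this
  have hnorm : ‖∑ k, F k * F k‖ ≤ 1 := by
    refine norm_sum_orth_selfAdjoint _ _ zero_le_one (fun k _ => ?_) (fun k _ l _ hkl => ?_)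
      fun k _ => ?_
    · simp [IsSelfAdjoint, star_mul, F, star_ramp]
    · rw [mul_assoc, ← mul_assoc (F k) (F l), horth k l hkl, zero_mul, mul_zero]
    · exact (norm_mul_le _ _).trans (mul_le_one₀ (norm_ramp_le (hκ k) _) (norm_nonneg _)
        (norm_ramp_le (hκ k) _))
  have hG : x * x * (∑ k, F k * F k) * (x * x) ≤ (1 : ℝ) • ((x * x) * (x * x)) := by
    have hsa : IsSelfAdjoint (∑ k, F k * F k) :=
      isSelfAdjoint_sum _ fun k _ => by simp [IsSelfAdjoint, star_mul, F, star_ramp]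
    have := CStarAlgebra.star_left_conjugate_le_norm_smul (a := x * x) hsa
    rw [hDs] at this
    refine this.trans (smul_le_smul_of_nonneg_right hnorm ?_)
    have := star_mul_self_nonneg (x * x)
    rwa [hDs] at this
  obtain ⟨k, hk⟩ := exists_res_notMem hP.1 hDs hDP F (fun k => star_ramp _ _) _ hG
    (c := δ ^ 2) (r := 1)
    (by
      rw [Fintype.card_fin]
      rw [div_lt_iff₀ (by positivity)] at hm
      push_cast
      nlinarith [sq_pos_of_pos hδ])
    (by rw [sub_self]; exact P.zero_mem)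
  set a := res (δ ^ 2) (x * x) (F k)
  set b := cut (2 * κ k) (d k)
  obtain ⟨e, he⟩ := exists_prime_witness hP hk (hκd k)
  refine ⟨a, b, gen {a} ⊓ gen {b}, (rmem_mul x x).mul _,
    ((rmem_mul y y).trans (hd k).2.1).trans (rmem_cut _ _), ?_,
    (isClosedIdeal_gen _).inf (isClosedIdeal_gen _), fun hle => he (hle ⟨?_, ?_⟩),
    fun Q hQ hJ => ⟨fun _ hq => ?_, fun _ hq => ?_⟩⟩
  · exact sep_of_kill (star_ramp _ _) (ramp_mul_cut (hκ k) (hd k).1) fun p hp => by
      have := res_kill (by positivity) hDs (star_ramp _ _) hp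
      rwa [Real.sqrt_sq hδ.le] at this
  · exact ((isClosedIdeal_gen {a}).2 b _
      (((isClosedIdeal_gen {a}).2 e a (subset_gen (Set.mem_singleton a))).2)).2
  · exact ((isClosedIdeal_gen {b}).2 (a * e) b (subset_gen (Set.mem_singleton b))).1
  · exact hJ (inf_le_left.trans (gen_le hQ.1 (by simpa using hq)))
  · exact hJ (inf_le_right.trans (gen_le hQ.1 (by simpa using hq)))

/-- `n + 1` orthogonal equivalent elements below a given element. -/
lemma local_family (hW : WeaklyPurelyInfinite A) (n : ℕ) {P : Submodule ℂ A}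
    (hP : IsPrimeIdeal P) {a : A} (haP : a ∉ P) :
    ∃ z : Fin (n + 1) → A, (∀ i, RMem a (z i)) ∧ (∀ i j, i ≠ j → star (z i) * z j = 0) ∧
      (∀ i, star (z i) * z i = star (z 0) * z 0) ∧ z 0 ∉ P := by
  have hcP : a * star a ∉ P := fun h => by
    have := hP.1.star_mem (hP.1.mem_of_star_mul_le h (a := star a) (by rw [star_star]))
    rw [star_star] at this
    exact haP this
  obtain ⟨d, hd, hdo⟩ := exists_orth_family hW hP (mul_star_self_nonneg a) hcP n
  suffices ∀ k, k ≤ n → ∃ z : Fin (n + 1) → A, (∀ i, RMem (d i) (z i)) ∧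
      (∀ i : Fin (n + 1), (i : ℕ) ≤ k → star (z i) * z i = star (z 0) * z 0) ∧ z 0 ∉ P by
    obtain ⟨z, hz, heq, h0⟩ := this n le_rfl
    exact ⟨z, fun i => ((rmem_mul a (star a)).trans (hd i).2.1).trans (hz i),
      fun i j hij => RMem.star_mul_eq_zero_self (hd i).1.isSelfAdjoint.star_eq (hdo i j hij)
        (hz i) (hz j), fun i => heq i (Nat.le_of_lt_succ i.2), h0⟩
  intro k
  induction k with
  | zero =>
    refine fun _ => ⟨d, fun i => rmem_self _, fun i hi => ?_, (hd 0).2.2⟩
    obtain rfl : i = 0 := Fin.ext (by simpa using hi)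
    rfl
  | succ k ih =>
    intro hk
    obtain ⟨z, hz, heq, h0⟩ := ih (by omega)
    set l : Fin (n + 1) := ⟨k + 1, by omega⟩
    have hv : star (z 0) * z 0 ∉ P := fun h => h0 (hP.1.mem_of_star_mul_le h le_rfl)
    obtain ⟨e, he⟩ := exists_prime_witness hP hv (hd l).2.2
    set m := e * d l
    set v' := star (z 0 * m) * (z 0 * m)
    have hv0 : 0 ≤ v' := star_mul_self_nonneg _
    set w := cfcₙ Real.sqrt v'
    have hwd : RMem (d l) w := by
      refine RMem.trans (p := v') ?_ (rmem_cfcₙ _ _)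
      have : v' = d l * (star e * star (z 0) * (z 0 * m)) := by
        simp [v', m, star_mul, (hd l).1.isSelfAdjoint.star_eq, mul_assoc]
      rw [this]
      exact rmem_mul _ _
    have hww : star w * w = v' := by
      rw [(IsSelfAdjoint.cfcₙ).star_eq, ← cfcₙ_mul .., ]
      nth_rw 2 [← cfcₙ_id' ℝ v']
      refine cfcₙ_congr fun t ht => ?_
      exact Real.mul_self_sqrt (quasispectrum_nonneg_of_nonneg v' hv0 t ht)
    have hne : ∀ i : Fin (n + 1), (i : ℕ) ≤ k → i ≠ l := fun i hi h => by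
      rw [h] at hi; simp [l] at hi
    refine ⟨fun i => if i = l then w else z i * m, fun i => ?_, fun i hi => ?_, ?_⟩
    · by_cases h : i = l
      · simpa [h] using hwd
      · simpa [h] using (hz i).mul m
    · have h00 : (0 : Fin (n + 1)) ≠ l := hne 0 (by simp)
      by_cases h : i = l
      · simpa [h, h00, v'] using hww
      · have hik : (i : ℕ) ≤ k := by
          rcases Nat.lt_or_eq_of_le hi with h' | h'
          · omega
          · exact absurd (Fin.ext h') h
        have := heq i hik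
        simp only [if_neg h, if_neg h00]
        calc star (z i * m) * (z i * m) = star m * (star (z i) * z i) * m := by
              simp [star_mul, mul_assoc]
          _ = _ := by rw [this]; simp [star_mul, mul_assoc]
    · have h00 : (0 : Fin (n + 1)) ≠ l := hne 0 (by simp)
      simp only [if_neg h00]
      intro h
      have := (hP.1.2 (star (z 0)) _ h).1
      rw [← mul_assoc, show star (z 0) * z 0 * m = star (z 0) * z 0 * e * d l from by
        simp [m, mul_assoc]] at this
      exact he this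

end Vale.Agent.P133
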