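import Vale.Agent.P133.Glue

/-!
From separated families to strong pure infiniteness.
-/

set_option linter.unusedSectionVars false

namespace Vale.Agent.P133

variable {A : Type*} [NonUnitalCStarAlgebra A] [PartialOrder A] [StarOrderedRing A]

lemma exists_multiplicity (hn : ∃ n : ℕ, 0 < n ∧ ∀ h : A, 0 ≤ h → ∀ ε : ℝ, 0 < ε →
      ∃ x : Fin n → Fin 2 × Fin n → A,
        ∀ i j, ‖(∑ k, star (x k i) * h * x k j) - (if i = j then h else 0)‖ < ε) :
    ∃ n : ℕ, 0 < n ∧ ∀ (N : ℕ) (h : A), 0 ≤ h → ∀ ε : ℝ, 0 < ε → ∃ y : Fin n → Fin N → A,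
      ∀ i j, ‖(∑ k, star (y k i) * h * y k j) - (if i = j then h else 0)‖ < ε := by
  classical
  obtain ⟨n, hn, hW⟩ := hn
  refine ⟨n, hn, fun N => ?_⟩
  suffices ∀ k : ℕ, ∀ (h : A), 0 ≤ h → ∀ ε : ℝ, 0 < ε →
      ∃ y : Fin n → Fin (2 ^ k) × Fin n → A,
        ∀ i j, ‖(∑ l, star (y l i) * h * y l j) - (if i = j then h else 0)‖ < ε by
    intro h hh ε hε
    obtain ⟨y, hy⟩ := this N h hh ε hε
    obtain ⟨e⟩ : Nonempty (Fin N ↪ Fin (2 ^ N) × Fin n) := by
      refine Function.Embedding.nonempty_of_card_le ?_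
      simp only [Fintype.card_fin, Fintype.card_prod]
      exact (Nat.lt_two_pow_self).le.trans (Nat.le_mul_of_pos_right _ hn)
    refine ⟨fun l i => y l (e i), fun i j => ?_⟩
    have := hy (e i) (e j)
    simpa [e.injective.eq_iff] using this
  intro k
  induction k with
  | zero =>
    intro h hh ε hε
    obtain ⟨x, hx⟩ := hW h hh ε hε
    refine ⟨fun l i => x l (0, i.2), fun i j => ?_⟩
    have h1 : ((0 : Fin 2), i.2) = ((0 : Fin 2), j.2) ↔ i = j := by
      constructor
      · intro hij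
        exact Prod.ext (Fin.ext (by omega)) (by simpa using hij)
      · rintro rfl; rfl
    simpa only [h1] using hx (0, i.2) (0, j.2)
  | succ k ih =>
    intro h hh ε hε
    obtain ⟨w, hw⟩ := hW h hh (ε / 2) (half_pos hε)
    set W := ∑ j, ∑ i, ‖w j i‖
    have hW0 : 0 ≤ W := by positivity
    set ε' := ε / (2 * (W + 1) ^ 2)
    obtain ⟨y, hy⟩ := ih h hh ε' (by positivity)
    let e : Fin (2 ^ (k + 1)) ≃ Fin (2 ^ k) × Fin 2 :=
      (finCongr (pow_succ 2 k)).trans finProdFinEquiv.symm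
    refine ⟨fun l i => ∑ j, y l ((e i.1).1, j) * w j ((e i.1).2, i.2), fun i i' => ?_⟩
    set a := e i.1
    set a' := e i'.1
    have hii : i = i' ↔ a.1 = a'.1 ∧ (a.2, i.2) = (a'.2, i'.2) := by
      constructor
      · rintro rfl; exact ⟨rfl, rfl⟩
      · rintro ⟨h1, h2⟩
        simp only [Prod.mk.injEq] at h2
        exact Prod.ext (e.injective (Prod.ext h1 h2.1)) h2.2
    set G := fun j j' => (∑ l, star (y l (a.1, j)) * h * y l (a'.1, j'))
      - (if (a.1, j) = (a'.1, j') then h else 0)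
    set H := (∑ j, star (w j (a.2, i.2)) * h * w j (a'.2, i'.2))
      - (if (a.2, i.2) = (a'.2, i'.2) then h else 0)
    have e1 : (∑ l, star (∑ j, y l (a.1, j) * w j (a.2, i.2)) * h
          * (∑ j, y l (a'.1, j) * w j (a'.2, i'.2))) - (if i = i' then h else 0)
        = (∑ j, ∑ j', star (w j (a.2, i.2)) * G j j' * w j' (a'.2, i'.2))
          + (if a.1 = a'.1 then H else 0) := by
      have e2 : (∑ l, star (∑ j, y l (a.1, j) * w j (a.2, i.2)) * h
            * (∑ j, y l (a'.1, j) * w j (a'.2, i'.2)))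
          = ∑ j, ∑ j', star (w j (a.2, i.2))
              * (∑ l, star (y l (a.1, j)) * h * y l (a'.1, j')) * w j' (a'.2, i'.2) := by
        simp only [star_sum, star_mul, Finset.sum_mul, Finset.mul_sum, mul_assoc]
        conv_lhs => rw [Finset.sum_comm]; arg 2; ext j'; rw [Finset.sum_comm]
        rw [Finset.sum_comm]
      rw [e2]
      simp only [G, H, mul_sub, sub_mul, Finset.sum_sub_distrib]
      by_cases h1 : a.1 = a'.1
      · simp only [h1, Prod.mk.injEq, true_and, if_true, mul_ite, ite_mul, mul_zero, zero_mul,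
          Finset.sum_ite_eq, Finset.mem_univ]
        have : (i = i') ↔ (a.2 = a'.2 ∧ i.2 = i'.2) := by simp [hii, h1]
        simp only [this]
        abel
      · have : i ≠ i' := fun hc => h1 (hii.1 hc).1
        simp [h1, this, Prod.ext_iff]
    rw [e1]
    have hG : ∀ j j', ‖G j j'‖ ≤ ε' := fun j j' => (hy _ _).le
    have h2 : ‖if a.1 = a'.1 then H else 0‖ < ε / 2 := by
      split_ifs
      · exact hw _ _
      · simpa using half_pos hε
    have hwb : ∀ (i : Fin 2 × Fin n), (∑ j, ‖w j i‖) ≤ W := fun i =>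
      Finset.sum_le_sum fun j _ =>
        Finset.single_le_sum (f := fun i => ‖w j i‖) (fun i _ => norm_nonneg _) (Finset.mem_univ i)
    have h3 : ‖∑ j, ∑ j', star (w j (a.2, i.2)) * G j j' * w j' (a'.2, i'.2)‖ ≤ ε / 2 := by
      calc _ ≤ ∑ j, ∑ j', ‖w j (a.2, i.2)‖ * ε' * ‖w j' (a'.2, i'.2)‖ := by
            refine (norm_sum_le _ _).trans (Finset.sum_le_sum fun j _ => (norm_sum_le _ _).trans
              (Finset.sum_le_sum fun j' _ => (norm_mul₃_le ..).trans ?_))
            rw [norm_star]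
            gcongr
            exact hG j j'
        _ = ε' * ((∑ j, ‖w j (a.2, i.2)‖) * ∑ j', ‖w j' (a'.2, i'.2)‖) := by
            rw [Finset.sum_mul_sum]
            simp only [Finset.mul_sum]
            exact Finset.sum_congr rfl fun j _ => Finset.sum_congr rfl fun j' _ => by ring
        _ ≤ ε' * ((W + 1) * (W + 1)) := by
            refine mul_le_mul_of_nonneg_left (mul_le_mul ((hwb _).trans (by linarith))
              ((hwb _).trans (by linarith)) (by positivity) (by positivity)) (by positivity)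
        _ = ε / 2 := by
            simp only [ε']; field_simp
    exact (norm_add_le _ _).trans_lt (by linarith)

lemma exists_cone_bound {v : A} (hv : 0 ≤ v) {g : A}
    (hg : g ∈ Submodule.span ℂ {z : A | ∃ x, ∃ s ∈ ({v} : Set A), ∃ y, z = x * s * y}) :
    ∃ (N : ℕ) (r : Fin N → A), star g * g ≤ ∑ i, star (r i) * v * r i := by
  have hvs : star v = v := hv.isSelfAdjoint.star_eq
  induction hg using Submodule.span_induction with
  | mem z hz =>
    obtain ⟨x, s, rfl, y, rfl⟩ := hz
    refine ⟨1, fun _ => (√(‖x‖ ^ 2 * ‖s‖) : ℂ) • y, ?_⟩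
    have h1 : star s * (star x * x) * s ≤ (‖x‖ ^ 2 * ‖s‖) • s := by
      refine (CStarAlgebra.star_left_conjugate_le_norm_smul (IsSelfAdjoint.star_mul_self x)).trans ?_
      rw [CStarRing.norm_star_mul_self, ← sq, hvs, ← smul_smul (‖x‖ ^ 2) ‖s‖]
      refine smul_le_smul_of_nonneg_left ?_ (by positivity)
      have hid : cfcₙ (fun t : ℝ => t) s = s := cfcₙ_id' ℝ s
      calc s * s = cfcₙ (fun t : ℝ => t * t) s := by rw [cfcₙ_mul .., hid]
        _ ≤ cfcₙ (fun t : ℝ => ‖s‖ * t) s := by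
          refine cfcₙ_mono fun t ht => ?_
          exact mul_le_mul_of_nonneg_right ((le_abs_self t).trans
            (abs_le_norm_of_mem hv.isSelfAdjoint ht)) (quasispectrum_nonneg_of_nonneg s hv t ht)
        _ = ‖s‖ • s := by rw [cfcₙ_const_mul ‖s‖ (fun t => t) s, hid]
    have h2 := star_left_conjugate_le_conjugate h1 y
    simp only [Finset.univ_unique, Finset.sum_singleton, star_smul, smul_mul_assoc, mul_smul_comm,
      smul_smul, RCLike.star_def, Complex.conj_ofReal]
    rw [← Complex.ofReal_mul, Real.mul_self_sqrt (by positivity), Complex.coe_smul]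
    calc star (x * s * y) * (x * s * y) = star y * (star s * (star x * x) * s) * y := by
          simp [star_mul, mul_assoc]
      _ ≤ star y * ((‖x‖ ^ 2 * ‖s‖) • s) * y := h2
      _ = (‖x‖ ^ 2 * ‖s‖) • (star y * s * y) := by rw [mul_smul_comm, smul_mul_assoc]
  | zero => exact ⟨0, Fin.elim0, by simp⟩
  | add a b _ _ ha hb =>
    obtain ⟨N, r, hr⟩ := ha
    obtain ⟨M, s, hs⟩ := hb
    refine ⟨N + N + (M + M), Fin.append (Fin.append r r) (Fin.append s s), ?_⟩
    rw [Fin.sum_univ_add, Fin.sum_univ_add, Fin.sum_univ_add]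
    simp only [Fin.append_left, Fin.append_right]
    refine le_trans ?_ (add_le_add (add_le_add hr hr) (add_le_add hs hs))
    rw [← sub_nonneg]
    convert star_mul_self_nonneg (a - b) using 1
    simp only [star_add, star_sub]
    noncomm_ring
  | smul c a _ ha =>
    obtain ⟨N, r, hr⟩ := ha
    refine ⟨N, fun i => c • r i, ?_⟩
    have h : star (c • a) * (c • a) = (‖c‖ ^ 2) • (star a * a) := by
      rw [star_smul, smul_mul_smul_comm, RCLike.star_def, Complex.conj_mul', ← Complex.ofReal_pow,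
        Complex.coe_smul]
    have h' : ∀ i, star (c • r i) * v * (c • r i) = (‖c‖ ^ 2) • (star (r i) * v * r i) := fun i => by
      rw [star_smul, smul_mul_assoc, smul_mul_smul_comm, RCLike.star_def, Complex.conj_mul',
        ← Complex.ofReal_pow, Complex.coe_smul]
    rw [h, Finset.sum_congr rfl fun i _ => h' i, ← Finset.smul_sum]
    exact smul_le_smul_of_nonneg_left hr (by positivity)

lemma exists_compress {K c : A} (hK : 0 ≤ K) (hc : 0 ≤ c) (hle : c ≤ K) {ε : ℝ} (hε : 0 < ε) :
    ∃ r : A, ‖c - star r * K * r‖ ≤ ε := by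
  set s := CFC.sqrt c
  have hss : star s = s := (CFC.sqrt_nonneg c).isSelfAdjoint.star_eq
  have hsq : s * s = c := CFC.sqrt_mul_sqrt_self c hc
  set e := min 1 (ε / (2 * ‖s‖ + 1))
  have he : 0 < e := lt_min one_pos (by positivity)
  set φ : ℝ → ℝ := fun t => √(max t 0) / (max t 0 + e ^ 2)
  have hφc : Continuous φ :=
    ((Real.continuous_sqrt.comp (continuous_id.max continuous_const))).div₀ (by fun_prop)
      fun t => by positivity
  have hφ0 : φ 0 = 0 := by simp [φ]
  set u := cfcₙ (unitFun (e ^ 2)) K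
  have hus : star u = u := (IsSelfAdjoint.cfcₙ).star_eq
  have hu1 : ‖u‖ ≤ 1 := norm_unit_le (by positivity) K
  have h1 : ‖s - s * u‖ ≤ e := by
    have := norm_sub_mul_unit_le (by positivity : 0 < e ^ 2) (S := K) (a := s)
      (by rwa [hss, hsq])
    rwa [Real.sqrt_sq he.le] at this
  have h2 : cfcₙ φ K * K * cfcₙ φ K = u * u := by
    have hid : cfcₙ (fun t : ℝ => t) K = K := cfcₙ_id' ℝ K
    have hcu := (continuous_unitFun (by positivity : 0 < e ^ 2)).continuousOn
      (s := quasispectrum ℝ K)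
    nth_rw 2 [← hid]
    simp only [u]
    rw [← cfcₙ_mul _ _ K hcu (unitFun_zero _) hcu (unitFun_zero _),
      ← cfcₙ_mul φ (fun t => t) K hφc.continuousOn hφ0,
      ← cfcₙ_mul (fun t => φ t * t) φ K ((hφc.fun_mul continuous_id).continuousOn) (by simp [hφ0])
        hφc.continuousOn hφ0]
    refine cfcₙ_congr fun t ht => ?_
    have ht0 := quasispectrum_nonneg_of_nonneg K hK t ht
    simp only [φ, unitFun, max_eq_left ht0, id]
    have : t + e ^ 2 ≠ 0 := by positivity
    field_simp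
    nlinarith [Real.mul_self_sqrt ht0]
  refine ⟨cfcₙ φ K * s, ?_⟩
  have e1 : star (cfcₙ φ K * s) * K * (cfcₙ φ K * s) = (s * u) * star (s * u) := by
    calc _ = s * (cfcₙ φ K * K * cfcₙ φ K) * s := by
          rw [star_mul, hss, (IsSelfAdjoint.cfcₙ).star_eq]; simp only [mul_assoc]
      _ = _ := by rw [h2, star_mul, hus, hss]; simp only [mul_assoc]
  rw [e1, ← hsq]
  calc ‖s * s - s * u * star (s * u)‖
      = ‖(s - s * u) * s + s * u * star (s - s * u)‖ := by
        rw [star_sub, hss]; noncomm_ring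
    _ ≤ e * ‖s‖ + ‖s‖ * e := by
        refine (norm_add_le _ _).trans (add_le_add ?_ ?_)
        · exact (norm_mul_le _ _).trans (mul_le_mul_of_nonneg_right h1 (norm_nonneg _))
        · refine (norm_mul_le _ _).trans (mul_le_mul ?_ (by rwa [norm_star]) (norm_nonneg _)
            (norm_nonneg _))
          exact (norm_mul_le _ _).trans (by nlinarith [norm_nonneg s])
    _ ≤ e * (2 * ‖s‖ + 1) := by nlinarith
    _ ≤ ε := by
        have := mul_le_mul_of_nonneg_right (min_le_right (1:ℝ) (ε / (2 * ‖s‖ + 1)))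
          (show 0 ≤ 2 * ‖s‖ + 1 by positivity)
        rwa [div_mul_cancel₀ ε (by positivity)] at this

lemma infDist_span_le {S : Set A} {a g : A}
    (hg : g ∈ Submodule.span ℂ {z : A | ∃ x, ∃ s ∈ S, ∃ y, z = x * s * y}) (hS : S ⊆ {a}) :
    ∃ C : ℝ, 0 ≤ C ∧ ∀ G : Submodule ℂ A, IsClosedIdeal A G →
      Metric.infDist g (G : Set A) ≤ C * Metric.infDist a (G : Set A) := by
  induction hg using Submodule.span_induction with
  | mem z hz =>
    obtain ⟨x, s, hs, y, rfl⟩ := hz
    obtain rfl : s = a := hS hs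
    refine ⟨‖x‖ * ‖y‖, by positivity, fun G hG => ?_⟩
    refine le_of_forall_pos_le_add fun ε hε => ?_
    have hε' : 0 < ε / (‖x‖ * ‖y‖ + 1) := by positivity
    obtain ⟨p, hp, hd⟩ := (Metric.infDist_lt_iff ⟨0, G.zero_mem⟩).1
      (lt_add_of_pos_right (Metric.infDist s (G : Set A)) hε')
    refine (Metric.infDist_le_dist_of_mem (hG.2 y _ (hG.2 x p hp).1).2).trans ?_
    rw [dist_eq_norm] at hd ⊢
    rw [← sub_mul, ← mul_sub]
    refine (norm_mul₃_le ..).trans ?_
    have h1 : ‖x‖ * ‖y‖ * ‖s - p‖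
        ≤ ‖x‖ * ‖y‖ * (Metric.infDist s (G : Set A) + ε / (‖x‖ * ‖y‖ + 1)) :=
      mul_le_mul_of_nonneg_left hd.le (by positivity)
    have h2 : ‖x‖ * ‖y‖ * (ε / (‖x‖ * ‖y‖ + 1)) ≤ ε := by
      rw [← mul_div_assoc, div_le_iff₀ (by positivity)]; nlinarith
    nlinarith
  | zero => exact ⟨0, le_rfl, fun G _ => by simp [Metric.infDist_zero_of_mem G.zero_mem]⟩
  | add u v _ _ hu hv =>
    obtain ⟨C, hC, hu⟩ := hu
    obtain ⟨D, hD, hv⟩ := hv
    exact ⟨C + D, add_nonneg hC hD, fun G hG =>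
      (infDist_add_le u v).trans (by rw [add_mul]; exact add_le_add (hu G hG) (hv G hG))⟩
  | smul r u _ hu =>
    obtain ⟨C, hC, hu⟩ := hu
    exact ⟨‖r‖ * C, mul_nonneg (norm_nonneg r) hC, fun G hG =>
      (infDist_smul_le r u).trans (by
        rw [mul_assoc]; exact mul_le_mul_of_nonneg_left (hu G hG) (norm_nonneg r))⟩

lemma exists_one_column (hDR : DisjointRefinement A) (hW : WeaklyPurelyInfinite A) {x a : A}
    (hx : star x = x) {ρ : ℝ} (hρ : 0 < ρ)
    (ha : Metric.infDist x (gen {a} : Set A) ≤ ρ / (100 * (‖x‖ + 1))) (hρ1 : ρ ≤ 1) :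
    ∃ p, RMem a p ∧ ‖star p * p - x * x‖ ≤ ρ := by
  obtain ⟨n, hn, hN⟩ := exists_multiplicity hW
  set τ := ρ / (50 * (‖x‖ + 1))
  have hτ : 0 < τ := by positivity
  obtain ⟨g, hg, hxg⟩ := exists_span_near (ha.trans_lt (show ρ / (100 * (‖x‖ + 1)) < τ by
    rw [div_lt_div_iff₀ (by positivity) (by positivity)]; nlinarith [norm_nonneg x]))
  obtain ⟨C, hC, hCg⟩ := infDist_span_le hg subset_rfl
  obtain ⟨m, rfl⟩ : ∃ m, n = m + 1 := ⟨n - 1, by omega⟩
  obtain ⟨z, hz, hzo, hze, hzd⟩ := stage_two hDR hW m a (show 0 < τ / (C + 1) by positivity)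
  set v := star (z 0) * z 0
  have hv : 0 ≤ v := star_mul_self_nonneg _
  have h1 : Metric.infDist g (gen {v} : Set A) ≤ τ := by
    refine (hCg _ (isClosedIdeal_gen _)).trans ?_
    calc C * Metric.infDist a (gen {v} : Set A) ≤ (C + 1) * (τ / (C + 1)) := by
          exact mul_le_mul (by linarith) hzd Metric.infDist_nonneg (by linarith)
      _ = τ := by field_simp
  obtain ⟨g', hg', hgg'⟩ := exists_span_near (h1.trans_lt (show τ < 2 * τ by linarith))
  obtain ⟨N, r, hr⟩ := exists_cone_bound hv hg'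
  have hK : 0 ≤ ∑ i, star (r i) * v * r i :=
    Finset.sum_nonneg fun i _ => star_left_conjugate_nonneg hv _
  obtain ⟨R, hR⟩ := exists_compress hK (star_mul_self_nonneg g') hr
    (show 0 < ρ / 4 by positivity)
  set S := ∑ i, ‖r i * R‖
  have hS : 0 ≤ S := by positivity
  obtain ⟨y, hy⟩ := hN N v hv (ρ / (4 * (S + 1) ^ 2)) (by positivity)
  set P := fun k => ∑ i, y k i * (r i * R)
  refine ⟨∑ k, z k * P k, RMem.sum _ fun k _ => (hz k).mul _, ?_⟩
  have e1 : star (∑ k, z k * P k) * (∑ k, z k * P k) = ∑ k, star (P k) * v * P k := by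
    rw [star_sum, Finset.sum_mul]
    refine Finset.sum_congr rfl fun k _ => ?_
    rw [Finset.mul_sum, Finset.sum_eq_single k (fun l _ hl => ?_) (by simp)]
    · calc star (z k * P k) * (z k * P k) = star (P k) * (star (z k) * z k) * P k := by
            simp [star_mul, mul_assoc]
        _ = _ := by rw [hze k]
    · calc star (z k * P k) * (z l * P l) = star (P k) * (star (z k) * z l) * P l := by
            simp [star_mul, mul_assoc]
        _ = 0 := by rw [hzo k l (Ne.symm hl)]; simp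
  have e2 : (∑ k, star (P k) * v * P k) - star R * (∑ i, star (r i) * v * r i) * R
      = ∑ i, ∑ i', star (r i * R)
          * ((∑ k, star (y k i) * v * y k i') - (if i = i' then v else 0)) * (r i' * R) := by
    simp only [mul_sub, sub_mul, Finset.sum_sub_distrib, mul_ite, ite_mul, mul_zero, zero_mul,
      Finset.sum_ite_eq, Finset.mem_univ, if_true]
    congr 1
    · simp only [P, star_sum, star_mul, Finset.sum_mul, Finset.mul_sum, mul_assoc]
      conv_lhs => rw [Finset.sum_comm]; arg 2; ext i'; rw [Finset.sum_comm]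
      rw [Finset.sum_comm]
    · simp [Finset.sum_mul, Finset.mul_sum, star_mul, mul_assoc]
  have h2 : ‖(∑ k, star (P k) * v * P k) - star R * (∑ i, star (r i) * v * r i) * R‖ ≤ ρ / 4 := by
    rw [e2]
    calc _ ≤ ∑ i, ∑ i', ‖r i * R‖ * (ρ / (4 * (S + 1) ^ 2)) * ‖r i' * R‖ := by
          refine (norm_sum_le _ _).trans (Finset.sum_le_sum fun i _ => (norm_sum_le _ _).trans
            (Finset.sum_le_sum fun i' _ => (norm_mul₃_le ..).trans ?_))
          rw [norm_star]
          gcongr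
          exact (hy i i').le
      _ = (ρ / (4 * (S + 1) ^ 2)) * (S * S) := by
          rw [show S * S = ∑ i, ∑ i', ‖r i * R‖ * ‖r i' * R‖ from Finset.sum_mul_sum _ _ _ _,
            Finset.mul_sum]
          refine Finset.sum_congr rfl fun j _ => ?_
          rw [Finset.mul_sum]
          exact Finset.sum_congr rfl fun j' _ => by ring
      _ ≤ (ρ / (4 * (S + 1) ^ 2)) * ((S + 1) * (S + 1)) := by gcongr <;> linarith
      _ = ρ / 4 := by field_simp
  have h3 : ‖x - g'‖ ≤ 3 * τ := by
    have := norm_sub_le_norm_sub_add_norm_sub x g g'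
    linarith
  have hτ1 : τ * (50 * (‖x‖ + 1)) = ρ := by simp only [τ]; field_simp
  have h4 : ‖star g' * g' - x * x‖ ≤ ρ / 4 := by
    have e : star g' * g' - x * x = star (g' - x) * g' + x * (g' - x) := by
      rw [star_sub, hx]; noncomm_ring
    have hg1 : ‖g'‖ ≤ ‖x‖ + 3 * τ := by
      have := norm_sub_le x (x - g')
      rw [sub_sub_cancel] at this
      linarith
    have hτs : 3 * τ ≤ 1 := by nlinarith [norm_nonneg x]
    rw [e]
    refine (norm_add_le _ _).trans ?_
    have a1 : ‖star (g' - x) * g'‖ ≤ 3 * τ * (‖x‖ + 1) := by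
      refine (norm_mul_le _ _).trans (mul_le_mul ?_ (by linarith) (norm_nonneg _) (by positivity))
      rwa [norm_star, norm_sub_rev]
    have a2 : ‖x * (g' - x)‖ ≤ (‖x‖ + 1) * (3 * τ) := by
      refine (norm_mul_le _ _).trans (mul_le_mul (by linarith) ?_ (norm_nonneg _) (by positivity))
      rwa [norm_sub_rev]
    nlinarith
  have e3 : star R * (∑ i, star (r i) * v * r i) * R
      = star R * (∑ i, star (r i) * v * r i) * R := rfl
  rw [e1]
  have t1 := norm_sub_le_norm_sub_add_norm_sub (∑ k, star (P k) * v * P k)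
    (star R * (∑ i, star (r i) * v * r i) * R) (x * x)
  have t2 := norm_sub_le_norm_sub_add_norm_sub
    (star R * (∑ i, star (r i) * v * r i) * R) (star g' * g') (x * x)
  have t3 := hR
  rw [norm_sub_rev] at t3
  linarith

lemma wpi_to_spi (hDR : DisjointRefinement A) (hW : WeaklyPurelyInfinite A) :
    StronglyPurelyInfinite A := by
  intro x y hx hy ε hε
  have hxs := hx.isSelfAdjoint.star_eq
  have hys := hy.isSelfAdjoint.star_eq
  set ρ := min 1 (ε / 8)
  have hρ : 0 < ρ := lt_min one_pos (by positivity)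
  have hρ1 : ρ ≤ 1 := min_le_left _ _
  set δ := ε / (4 * (‖x‖ + 2) * (‖y‖ + 2))
  set θ := min (ρ / (100 * (‖x‖ + 1))) (ρ / (100 * (‖y‖ + 1)))
  obtain ⟨a, b, hxa, hyb, hsep, hda, hdb⟩ := stage_one hDR hW hxs hys
    (show 0 < δ by positivity) (show 0 < θ from lt_min (by positivity) (by positivity))
  obtain ⟨p, hp, hpx⟩ := exists_one_column hDR hW hxs hρ (hda.trans (min_le_left _ _)) hρ1
  obtain ⟨q, hq, hqy⟩ := exists_one_column hDR hW hys hρ (hdb.trans (min_le_right _ _)) hρ1
  have bound : ∀ u v : A, ‖star u * u - v * v‖ ≤ ρ → ‖u‖ ≤ ‖v‖ + 1 := by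
    intro u v h
    have h1 : ‖u‖ * ‖u‖ ≤ (‖v‖ + 1) * (‖v‖ + 1) := by
      rw [← CStarRing.norm_star_mul_self]
      have := norm_le_insert' (star u * u) (v * v)
      nlinarith [norm_mul_le v v, norm_nonneg v]
    exact (mul_self_le_mul_self_iff (norm_nonneg _) (by positivity)).2 h1
  have hpn := bound p x hpx
  have hqn := bound q y hqy
  set e := min 1 (min (ε / (8 * (‖x‖ + 2))) (ε / (8 * (‖y‖ + 2))))
  have he : 0 < e := lt_min one_pos (lt_min (by positivity) (by positivity))
  obtain ⟨s, hs⟩ := (hxa.trans hp).exists_near he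
  obtain ⟨t, ht⟩ := (hyb.trans hq).exists_near he
  have e1 : e * (‖x‖ + 2) ≤ ε / 8 := by
    have := mul_le_mul_of_nonneg_right ((min_le_right _ _).trans (min_le_left _ _) :
      e ≤ ε / (8 * (‖x‖ + 2))) (show 0 ≤ ‖x‖ + 2 by positivity)
    rwa [show ε / (8 * (‖x‖ + 2)) * (‖x‖ + 2) = ε / 8 by field_simp] at this
  have e2 : e * (‖y‖ + 2) ≤ ε / 8 := by
    have := mul_le_mul_of_nonneg_right ((min_le_right _ _).trans (min_le_right _ _) :
      e ≤ ε / (8 * (‖y‖ + 2))) (show 0 ≤ ‖y‖ + 2 by positivity)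
    rwa [show ε / (8 * (‖y‖ + 2)) * (‖y‖ + 2) = ε / 8 by field_simp] at this
  have he1 : e ≤ 1 := min_le_left _ _
  have sa : ∀ (u p w : A), star u = u → ‖p - u * w‖ < e → ‖p‖ ≤ ‖u‖ + 1 →
      ‖u * w‖ ≤ ‖u‖ + 2 ∧ ‖star w * (u * u) * w - star p * p‖ ≤ 2 * (e * (‖u‖ + 2)) := by
    intro u p w hu h hpn
    have h2 : ‖u * w‖ ≤ ‖u‖ + 2 := by
      have := norm_sub_le p (p - u * w)
      rw [sub_sub_cancel] at this
      linarith
    refine ⟨h2, ?_⟩
    have e3 : star w * (u * u) * w - star p * p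
        = star (u * w - p) * (u * w) + star p * (u * w - p) := by
      simp only [star_sub, star_mul, hu]; noncomm_ring
    rw [e3]
    refine (norm_add_le _ _).trans ?_
    have b1 : ‖star (u * w - p) * (u * w)‖ ≤ e * (‖u‖ + 2) := by
      refine (norm_mul_le _ _).trans (mul_le_mul ?_ h2 (norm_nonneg _) he.le)
      rw [norm_star, norm_sub_rev]; exact h.le
    have b2 : ‖star p * (u * w - p)‖ ≤ (‖u‖ + 2) * e := by
      refine (norm_mul_le _ _).trans (mul_le_mul ?_ ?_ (norm_nonneg _) (by positivity))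
      · rw [norm_star]; linarith
      · rw [norm_sub_rev]; exact h.le
    linarith
  obtain ⟨hxs2, hsx⟩ := sa x p s hxs hs hpn
  obtain ⟨hyt2, hty⟩ := sa y q t hys ht hqn
  refine ⟨s, t, ?_, ?_, ?_⟩
  · have := norm_sub_le_norm_sub_add_norm_sub (star s * (x * x) * s) (star p * p) (x * x)
    linarith [min_le_right (1:ℝ) (ε / 8)]
  · have := norm_sub_le_norm_sub_add_norm_sub (star t * (y * y) * t) (star q * q) (y * y)
    linarith [min_le_right (1:ℝ) (ε / 8)]
  · have e3 : star s * (x * y) * t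
        = star (x * s - p) * (y * t) + star p * (y * t - q) + star p * q := by
      simp only [star_sub, star_mul, hxs]; noncomm_ring
    rw [e3]
    have b1 : ‖star (x * s - p) * (y * t)‖ ≤ e * (‖y‖ + 2) := by
      refine (norm_mul_le _ _).trans (mul_le_mul ?_ hyt2 (norm_nonneg _) he.le)
      rw [norm_star, norm_sub_rev]; exact hs.le
    have b2 : ‖star p * (y * t - q)‖ ≤ (‖x‖ + 2) * e := by
      refine (norm_mul_le _ _).trans (mul_le_mul ?_ ?_ (norm_nonneg _) (by positivity))
      · rw [norm_star]; linarith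
      · rw [norm_sub_rev]; exact ht.le
    have b3 : ‖star p * q‖ ≤ ε / 4 := by
      refine (hsep p q hp hq).trans ?_
      calc δ * ‖p‖ * ‖q‖ ≤ δ * (‖x‖ + 2) * (‖y‖ + 2) := by
            gcongr <;> linarith
        _ = ε / 4 := by simp only [δ]; field_simp
    have := norm_add₃_le (a := star (x * s - p) * (y * t)) (b := star p * (y * t - q))
      (c := star p * q)
    linarith

lemma spi_to_pi (h : StronglyPurelyInfinite A) : PurelyInfinite A := by
  intro k hk ε hε
  set x := CFC.sqrt k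
  have hxx : x * x = k := CFC.sqrt_mul_sqrt_self k hk
  obtain ⟨s, t, h1, h2, h3⟩ := h x x (CFC.sqrt_nonneg k) (CFC.sqrt_nonneg k) ε hε
  rw [hxx] at h1 h2 h3
  refine ⟨![s, t], fun i j => ?_⟩
  fin_cases i <;> fin_cases j
  · simpa using h1
  · simpa using h3
  · have e : star t * k * s = star (star s * k * t) := by
      rw [star_mul, star_mul, star_star, hk.isSelfAdjoint.star_eq, mul_assoc]
    show ‖star (![s, t] 1) * k * ![s, t] 0 - (if (1 : Fin 2) = 0 then k else 0)‖ < ε
    simp only [Matrix.cons_val_one, Matrix.cons_val_zero, Fin.one_eq_zero_iff]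
    rw [if_neg (by norm_num), sub_zero, e, norm_star]
    exact h3
  · simpa using h2

lemma pi_to_wpi (h : PurelyInfinite A) : WeaklyPurelyInfinite A := by
  refine ⟨1, one_pos, fun k hk ε hε => ?_⟩
  obtain ⟨x, hx⟩ := h k hk ε hε
  refine ⟨fun _ i => x i.1, fun i j => ?_⟩
  have : i = j ↔ i.1 = j.1 :=
    ⟨fun h => h ▸ rfl, fun h => Prod.ext h (Subsingleton.elim _ _)⟩
  simpa [this] using hx i.1 j.1

lemma disjointRefinement_of_total (h : IdealsTotallyOrdered A) : DisjointRefinement A := by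
  intro R J hJ T hT hcov η hη
  rcases Nat.eq_zero_or_pos R with rfl | hR
  · exact ⟨0, Fin.elim0, Fin.elim0, fun k => k.elim0, fun k => k.elim0, fun P hP _ => by
      rw [Metric.infDist_zero_of_mem (hcov P hP fun r => r.elim0)]; exact hη.le⟩
  obtain ⟨r, hr⟩ : ∃ r, ∀ r', J r' ≤ J r := by
    haveI : Nonempty (Fin R) := ⟨⟨0, hR⟩⟩
    obtain ⟨r, hr⟩ := Finite.exists_max (α := Fin R) (β := Lex (ℕ × ℕ))
      (fun r => toLex (Nat.card {r' // J r' ≤ J r}, 0))
    refine ⟨r, fun r' => ?_⟩
    rcases h _ _ (hJ r') (hJ r) with h' | h'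
    · exact h'
    · have hsub : {r'' // J r'' ≤ J r} → {r'' // J r'' ≤ J r'} := fun z => ⟨z.1, z.2.trans h'⟩
      by_contra hne
      have : Nat.card {r'' // J r'' ≤ J r} < Nat.card {r'' // J r'' ≤ J r'} := by
        refine Set.ncard_lt_ncard (s := {r'' | J r'' ≤ J r}) (t := {r'' | J r'' ≤ J r'}) ?_
        exact ⟨fun z hz => le_trans hz h', fun hss => hne (hss (le_refl (J r')))⟩
      have h2 := hr r'
      rw [Prod.Lex.toLex_le_toLex] at h2
      simp at h2
      omega
  refine ⟨1, fun _ => J r, fun _ => r, fun _ => ⟨hJ r, le_rfl⟩,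
    fun k l hkl => absurd (Subsingleton.elim k l) hkl, fun P hP hle => ?_⟩
  rw [Metric.infDist_zero_of_mem (hcov P hP fun r' => (hr r').trans (hle 0))]
  exact hη.le

end Vale.Agent.P133
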