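import Mathlib

/-!
Basic notions for the comparison question of Kirchberg and Rørdam (P133).
-/

namespace Vale.Agent.P133

variable (A : Type*) [NonUnitalCStarAlgebra A] [PartialOrder A] [StarOrderedRing A]

/-- A closed two-sided ideal, as a complex subspace. -/
def IsClosedIdeal (J : Submodule ℂ A) : Prop :=
  IsClosed (J : Set A) ∧ ∀ a : A, ∀ j ∈ J, a * j ∈ J ∧ j * a ∈ J

/-- Every positive element `h` is properly infinite: `h ⊕ h` is Cuntz below `h`, witnessed by a
row of two elements of `A`. -/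
def PurelyInfinite : Prop :=
  ∀ h : A, 0 ≤ h → ∀ ε : ℝ, 0 < ε → ∃ x : Fin 2 → A,
    ∀ i j, ‖star (x i) * h * x j - (if i = j then h else 0)‖ < ε

/-- For some fixed `n ≥ 1`, the `n`-fold diagonal amplification of every positive element is
properly infinite, witnessed by an `n × 2n` matrix over `A`. -/
def WeaklyPurelyInfinite : Prop :=
  ∃ n : ℕ, 0 < n ∧ ∀ h : A, 0 ≤ h → ∀ ε : ℝ, 0 < ε → ∃ x : Fin n → Fin 2 × Fin n → A,
    ∀ i j, ‖(∑ k, star (x k i) * h * x k j) - (if i = j then h else 0)‖ < ε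

/-- Strong pure infiniteness. -/
def StronglyPurelyInfinite : Prop :=
  ∀ x y : A, 0 ≤ x → 0 ≤ y → ∀ ε : ℝ, 0 < ε → ∃ s t : A,
    ‖star s * (x * x) * s - x * x‖ < ε ∧ ‖star t * (y * y) * t - y * y‖ < ε ∧
      ‖star s * (x * y) * t‖ < ε

/-- Finitely many closed ideals covering a positive element can be refined, up to `η`, by
finitely many closed ideals with pairwise zero intersection. -/
def DisjointRefinement : Prop :=
  ∀ (R : ℕ) (J : Fin R → Submodule ℂ A), (∀ r, IsClosedIdeal A (J r)) →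
    ∀ T : A, 0 ≤ T → (∀ P, IsClosedIdeal A P → (∀ r, J r ≤ P) → T ∈ P) →
      ∀ η : ℝ, 0 < η → ∃ (K : ℕ) (I : Fin K → Submodule ℂ A) (r : Fin K → Fin R),
        (∀ k, IsClosedIdeal A (I k) ∧ I k ≤ J (r k)) ∧
        (∀ k l, k ≠ l → I k ⊓ I l = ⊥) ∧
        ∀ P, IsClosedIdeal A P → (∀ k, I k ≤ P) → Metric.infDist T (P : Set A) ≤ η

/-- The lattice of closed two-sided ideals is totally ordered. -/
def IdealsTotallyOrdered : Prop :=
  ∀ I J : Submodule ℂ A, IsClosedIdeal A I → IsClosedIdeal A J → I ≤ J ∨ J ≤ I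

end Vale.Agent.P133
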