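import Vale.Agent.P133.Local

/-!
Gluing local solutions along ideals with pairwise zero intersection.
-/

set_option linter.unusedSectionVars false

namespace Vale.Agent.P133

variable {A : Type*} [NonUnitalCStarAlgebra A] [PartialOrder A] [StarOrderedRing A]

open scoped CStarAlgebra in
open Unitization in
lemma norm_sub_mul_sq_le {S a u : A} (hu : star u = u) (ha : star a * a ≤ S) :
    ‖a - a * u‖ ^ 2 ≤ ‖S - u * S - S * u + u * S * u‖ := by
  have hS : 0 ≤ S := (star_mul_self_nonneg a).trans ha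
  rw [sq, ← CStarRing.norm_star_mul_self, ← norm_inr (𝕜 := ℂ),
    ← norm_inr (𝕜 := ℂ) (a := S - u * S - S * u + u * S * u)]
  have hus' : star (u : A⁺¹) = u := by rw [← inr_star, hu]
  have e1 : ((star (a - a * u) * (a - a * u) : A) : A⁺¹)
      = star (1 - (u : A⁺¹)) * ((star a * a : A) : A⁺¹) * (1 - (u : A⁺¹)) := by
    simp only [star_sub, star_mul, hu, hus', inr_mul, inr_sub, star_one]
    noncomm_ring
  have e2 : ((S - u * S - S * u + u * S * u : A) : A⁺¹)
      = star (1 - (u : A⁺¹)) * (S : A⁺¹) * (1 - (u : A⁺¹)) := by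
    rw [star_sub, star_one, hus']
    simp only [inr_mul, inr_sub, inr_add]
    noncomm_ring
  rw [e1, e2]
  exact CStarAlgebra.norm_le_norm_of_nonneg_of_le
    (star_left_conjugate_nonneg ((inr_nonneg_iff).2 (star_mul_self_nonneg a)) _)
    (star_left_conjugate_le_conjugate
      ((inr_le_iff _ _ (IsSelfAdjoint.star_mul_self a) hS.isSelfAdjoint).2 ha) _)

lemma IsClosedIdeal.infDist_le_sqrt {P : Submodule ℂ A} (hP : IsClosedIdeal A P) {a T : A}
    (ha : star a * a ≤ T) {κ : ℝ} (h : Metric.infDist T (P : Set A) < κ) :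
    Metric.infDist a (P : Set A) ≤ √(5 * κ) := by
  have hT : 0 ≤ T := (star_mul_self_nonneg a).trans ha
  have hκ : 0 < κ := lt_of_le_of_lt Metric.infDist_nonneg h
  set σ := cut κ T
  have hσ : σ ∈ P := hP.cut_mem hT h
  set u := cfcₙ (unitFun κ) σ
  have hu : star u = u := (IsSelfAdjoint.cfcₙ).star_eq
  have hu1 : ‖u‖ ≤ 1 := norm_unit_le hκ σ
  have huP : u ∈ P := (rmem_cfcₙ (unitFun κ) σ).mem hP hσ
  have h1 : ‖σ - u * σ - σ * u + u * σ * u‖ ≤ κ := unit_error hκ (cut_nonneg κ T)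
  have hE : ‖T - σ‖ ≤ κ := norm_sub_cut_le hκ.le hT
  set E := T - σ
  have e : T - u * T - T * u + u * T * u
      = (σ - u * σ - σ * u + u * σ * u) + (E - u * E - E * u + u * E * u) := by
    simp only [E]; noncomm_ring
  have b1 : ‖u * E‖ ≤ κ :=
    (norm_mul_le _ _).trans (by nlinarith [norm_nonneg u, norm_nonneg E])
  have b2 : ‖E * u‖ ≤ κ :=
    (norm_mul_le _ _).trans (by nlinarith [norm_nonneg u, norm_nonneg E])
  have b3 : ‖u * E * u‖ ≤ κ :=
    (norm_mul_le _ _).trans (by nlinarith [norm_nonneg u, norm_nonneg (u * E)])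
  have h2 : ‖a - a * u‖ ^ 2 ≤ 5 * κ := by
    refine (norm_sub_mul_sq_le hu ha).trans ?_
    rw [e]
    have := norm_add_le (σ - u * σ - σ * u + u * σ * u) (E - u * E - E * u + u * E * u)
    have := norm_add_le (E - u * E - E * u) (u * E * u)
    have := norm_sub_le (E - u * E) (E * u)
    have := norm_sub_le E (u * E)
    linarith
  refine (Metric.infDist_le_dist_of_mem (hP.2 a u huP).1).trans ?_
  rw [dist_eq_norm]
  exact Real.le_sqrt_of_sq_le h2

lemma infDist_mul_left_le {P : Submodule ℂ A} (hP : IsClosedIdeal A P) (w a : A) :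
    Metric.infDist (w * a) (P : Set A) ≤ ‖w‖ * Metric.infDist a (P : Set A) := by
  refine le_of_forall_pos_le_add fun ε hε => ?_
  obtain ⟨p, hp, hd⟩ := (Metric.infDist_lt_iff ⟨0, P.zero_mem⟩).1
    (lt_add_of_pos_right (Metric.infDist a (P : Set A)) (show 0 < ε / (‖w‖ + 1) by positivity))
  refine (Metric.infDist_le_dist_of_mem (hP.2 w p hp).1).trans ?_
  rw [dist_eq_norm, ← mul_sub]
  refine (norm_mul_le _ _).trans ?_
  rw [dist_eq_norm] at hd
  calc ‖w‖ * ‖a - p‖ ≤ ‖w‖ * (Metric.infDist a (P : Set A) + ε / (‖w‖ + 1)) :=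
        mul_le_mul_of_nonneg_left hd.le (norm_nonneg w)
    _ ≤ _ := by
      rw [mul_add, ← mul_div_assoc]
      refine add_le_add le_rfl ?_
      rw [div_le_iff₀ (by positivity)]
      nlinarith [norm_nonneg w]

lemma infDist_add_le {P : Submodule ℂ A} (a b : A) :
    Metric.infDist (a + b) (P : Set A) ≤
      Metric.infDist a (P : Set A) + Metric.infDist b (P : Set A) := by
  refine le_of_forall_pos_le_add fun ε hε => ?_
  obtain ⟨p, hp, hd⟩ := (Metric.infDist_lt_iff ⟨0, P.zero_mem⟩).1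
    (lt_add_of_pos_right (Metric.infDist a (P : Set A)) (half_pos hε))
  obtain ⟨q, hq, hd'⟩ := (Metric.infDist_lt_iff ⟨0, P.zero_mem⟩).1
    (lt_add_of_pos_right (Metric.infDist b (P : Set A)) (half_pos hε))
  refine (Metric.infDist_le_dist_of_mem (add_mem hp hq)).trans ?_
  have := dist_add_add_le a b p q
  linarith

lemma infDist_smul_le {P : Submodule ℂ A} (r : ℂ) (a : A) :
    Metric.infDist (r • a) (P : Set A) ≤ ‖r‖ * Metric.infDist a (P : Set A) := by
  by_cases hr : r = 0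
  · simp [hr, Metric.infDist_zero_of_mem P.zero_mem]
  rw [mul_comm, ← div_le_iff₀ (norm_pos_iff.2 hr)]
  refine (Metric.le_infDist ⟨0, P.zero_mem⟩).2 fun p hp => ?_
  rw [div_le_iff₀ (norm_pos_iff.2 hr), mul_comm, ← dist_smul₀]
  exact Metric.infDist_le_dist_of_mem (P.smul_mem r hp)

/-- Finitely generated part of a generated ideal. -/
lemma exists_span_near {S : Set A} {T : A} {η : ℝ}
    (h : Metric.infDist T (gen S : Set A) < η) :
    ∃ g ∈ Submodule.span ℂ {z : A | ∃ x, ∃ s ∈ S, ∃ y, z = x * s * y}, ‖T - g‖ < η := by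
  rw [gen, Submodule.topologicalClosure_coe, Metric.infDist_closure] at h
  obtain ⟨g, hg, hd⟩ := (Metric.infDist_lt_iff ⟨0, Submodule.zero_mem _⟩).1 h
  exact ⟨g, hg, by rwa [dist_eq_norm] at hd⟩

lemma exists_refinement (hDR : DisjointRefinement A) {T : A} (hT : 0 ≤ T) {η : ℝ} (hη : 0 < η)
    {α : Type*} (Jf : α → Submodule ℂ A) (Good : α → Prop)
    (hcl : ∀ a, Good a → IsClosedIdeal A (Jf a))
    (h : ∀ P, IsPrimeIdeal P → η < Metric.infDist T (P : Set A) → ∃ a, Good a ∧ ¬ Jf a ≤ P) :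
    ∃ (K : ℕ) (I : Fin K → Submodule ℂ A) (r : Fin K → α),
      (∀ k, IsClosedIdeal A (I k) ∧ I k ≤ Jf (r k) ∧ Good (r k)) ∧
      (∀ k l, k ≠ l → I k ⊓ I l = ⊥) ∧
      ∀ P, IsClosedIdeal A P → (∀ k, I k ≤ P) → Metric.infDist T (P : Set A) ≤ 4 * η := by
  classical
  set S : Set A := {z | ∃ a, Good a ∧ z ∈ Jf a}
  have hG : Metric.infDist T (gen S : Set A) ≤ η := by
    refine infDist_le_of_forall_prime (isClosedIdeal_gen S) hT hη.le fun P hP hGP => ?_
    by_contra hcon
    obtain ⟨a, ha, hle⟩ := h P hP (not_le.1 hcon)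
    exact hle fun z hz => hGP (subset_gen ⟨a, ha, hz⟩)
  obtain ⟨g, hg, hTg⟩ := exists_span_near (hG.trans_lt (show η < 2 * η by linarith))
  have hfin : ∃ s : Finset α, (∀ a ∈ s, Good a) ∧
      g ∈ gen {z | ∃ a ∈ s, z ∈ Jf a} := by
    clear hTg
    induction hg using Submodule.span_induction with
    | mem z hz =>
      obtain ⟨x, s, ⟨a, ha, hs⟩, y, rfl⟩ := hz
      exact ⟨{a}, by simpa using ha, subset_gen
        ⟨a, by simp, ((hcl a ha).2 y _ ((hcl a ha).2 x s hs).1).2⟩⟩
    | zero => exact ⟨∅, by simp, Submodule.zero_mem _⟩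
    | add u v _ _ hu hv =>
      obtain ⟨s, hs, hu⟩ := hu
      obtain ⟨t, ht, hv⟩ := hv
      refine ⟨s ∪ t, by simp only [Finset.mem_union]; rintro a (h | h); exacts [hs a h, ht a h],
        add_mem ?_ ?_⟩
      · refine gen_le (isClosedIdeal_gen _) ?_ hu
        rintro z ⟨a, ha, hz⟩
        exact subset_gen ⟨a, by simp [ha], hz⟩
      · refine gen_le (isClosedIdeal_gen _) ?_ hv
        rintro z ⟨a, ha, hz⟩
        exact subset_gen ⟨a, by simp [ha], hz⟩
    | smul c u _ hu =>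
      obtain ⟨s, hs, hu⟩ := hu
      exact ⟨s, hs, Submodule.smul_mem _ c hu⟩
  obtain ⟨s, hs, hgs⟩ := hfin
  set e := s.equivFin.symm
  set T' := cut (2 * η) T
  have hT' : T' ∈ gen {z | ∃ a ∈ s, z ∈ Jf a} :=
    (isClosedIdeal_gen _).cut_mem hT
      (lt_of_le_of_lt (Metric.infDist_le_dist_of_mem hgs) (by rwa [dist_eq_norm]))
  obtain ⟨K, I, r, hI, horth, hcov⟩ := hDR s.card (fun i => Jf (e i)) (fun i => hcl _ (hs _ (e i).2))
    T' (cut_nonneg _ _)
    (fun P hP hle => gen_le hP (by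
      rintro z ⟨a, ha, hz⟩
      refine hle (e.symm ⟨a, ha⟩) ?_
      simpa using hz) hT') η hη
  refine ⟨K, I, fun k => e (r k), fun k => ⟨(hI k).1, (hI k).2, hs _ (e (r k)).2⟩, horth,
    fun P hP hle => ?_⟩
  have := Metric.infDist_le_infDist_add_dist (s := (P : Set A)) (x := T) (y := T')
  have := hcov P hP hle
  have : dist T T' ≤ 2 * η := by rw [dist_eq_norm]; exact norm_sub_cut_le (by linarith) hT
  linarith

lemma exists_unit_finset {I : Submodule ℂ A} (hI : IsClosedIdeal A I) (s : Finset A)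
    (hs : ∀ i ∈ s, i ∈ I) {ρ : ℝ} (hρ : 0 < ρ) :
    ∃ u ∈ I, star u = u ∧ ∀ i ∈ s, ‖i * u - i‖ ≤ ρ ∧ ‖u * i - i‖ ≤ ρ := by
  set S := ∑ i ∈ s, (star i * i + i * star i)
  have hS : S ∈ I := Submodule.sum_mem I fun i hi =>
    add_mem (hI.2 _ i (hs i hi)).1 (hI.2 _ i (hs i hi)).2
  obtain ⟨u, hu, hus, -, hh⟩ := near_unit (S := S) hρ
  refine ⟨u, hu.mem hI hS, hus, fun i hi => ?_⟩
  have hle : star i * i + i * star i ≤ S :=
    Finset.single_le_sum (f := fun i => star i * i + i * star i)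
      (fun j _ => add_nonneg (star_mul_self_nonneg j) (mul_star_self_nonneg j)) hi
  constructor
  · rw [norm_sub_rev]
    exact hh i ((le_add_of_nonneg_right (mul_star_self_nonneg i)).trans hle)
  · rw [norm_sub_rev, ← norm_star, star_sub, star_mul, hus]
    exact hh (star i) (by rw [star_star]; exact (le_add_of_nonneg_left (star_mul_self_nonneg i)).trans hle)

lemma exists_cutoff {K : ℕ} (I : Fin K → Submodule ℂ A) (hI : ∀ k, IsClosedIdeal A (I k))
    (v : Fin K → A) {T : A} (hT : 0 ≤ T) {η : ℝ} (hη : 0 < η)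
    (h : ∀ P, IsPrimeIdeal P → η < Metric.infDist T (P : Set A) → ∃ k, ¬ I k ≤ P ∧ v k ∉ P) :
    ∃ c : Fin K → A, (∀ k, c k ∈ I k ∧ star (c k) = c k) ∧
      Metric.infDist T (gen (Set.range fun k => c k * v k * c k) : Set A) ≤ 3 * η := by
  classical
  set S : Set A := {z | ∃ k, ∃ i ∈ I k, ∃ i' ∈ I k, z = i * v k * i'}
  have hG : Metric.infDist T (gen S : Set A) ≤ η := by
    refine infDist_le_of_forall_prime (isClosedIdeal_gen S) hT hη.le fun P hP hGP => ?_
    by_contra hcon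
    obtain ⟨k, hk, hv⟩ := h P hP (not_le.1 hcon)
    obtain ⟨i1, hi1, hi1P⟩ := SetLike.not_le_iff_exists.1 hk
    obtain ⟨c, hc⟩ := exists_prime_witness hP hi1P hv
    obtain ⟨d, hd⟩ := exists_prime_witness hP hc hi1P
    refine hd (hGP (subset_gen ⟨k, i1 * c, ((hI k).2 c i1 hi1).2, d * i1, ((hI k).2 d i1 hi1).1, ?_⟩))
    simp [mul_assoc]
  obtain ⟨g, hg, hTg⟩ := exists_span_near (hG.trans_lt (show η < 2 * η by linarith))
  have key : ∀ θ : ℝ, 0 < θ → ∃ (s : Fin K → Finset A) (ρ : ℝ), 0 < ρ ∧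
      (∀ k, ∀ i ∈ s k, i ∈ I k) ∧ ∀ c : Fin K → A,
        (∀ k, ∀ i ∈ s k, ‖i * c k - i‖ ≤ ρ ∧ ‖c k * i - i‖ ≤ ρ) →
        ∃ g' ∈ gen (Set.range fun k => c k * v k * c k), ‖g - g'‖ ≤ θ := by
    clear hTg
    induction hg using Submodule.span_induction with
    | mem z hz =>
      obtain ⟨x, s, ⟨k, i, hi, i', hi', rfl⟩, y, rfl⟩ := hz
      intro θ hθ
      set C := ‖x‖ * ‖y‖ * ‖v k‖ * (‖i‖ + ‖i'‖ + 1) + 1
      set ρ := min 1 (θ / C)
      refine ⟨fun l => if l = k then {i, i'} else ∅, ρ, lt_min one_pos (by positivity),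
        fun l j hj => ?_, fun c hc => ?_⟩
      · by_cases hl : l = k
        · subst hl
          simp only [if_true, Finset.mem_insert, Finset.mem_singleton] at hj
          rcases hj with rfl | rfl
          exacts [hi, hi']
        · simp [hl] at hj
      · have h1 := (hc k i (by simp)).1
        have h2 := (hc k i' (by simp)).2
        refine ⟨x * (i * (c k * v k * c k) * i') * y, ?_, ?_⟩
        · have hm : c k * v k * c k ∈ gen (Set.range fun k => c k * v k * c k) := subset_gen ⟨k, rfl⟩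
          have hcl := isClosedIdeal_gen (Set.range fun k => c k * v k * c k)
          exact (hcl.2 y _ (hcl.2 x _ (hcl.2 i' _ (hcl.2 i _ hm).1).2).1).2
        · have e : x * (i * v k * i') * y - x * (i * (c k * v k * c k) * i') * y
              = x * ((i - i * c k) * v k * (c k * i') + i * v k * (i' - c k * i')) * y := by
            noncomm_ring
          rw [e]
          rw [norm_sub_rev] at h1 h2
          have h3 : ‖c k * i'‖ ≤ ‖i'‖ + 1 := by
            have := norm_sub_le i' (i' - c k * i')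
            rw [sub_sub_cancel] at this
            linarith [min_le_left (1 : ℝ) (θ / C)]
          have hρC : ρ * C ≤ θ := by
            have := mul_le_mul_of_nonneg_right (min_le_right (1 : ℝ) (θ / C)) (show 0 ≤ C by positivity)
            rwa [div_mul_cancel₀ θ (by positivity : C ≠ 0)] at this
          calc _ ≤ ‖x‖ * (‖i - i * c k‖ * ‖v k‖ * ‖c k * i'‖
                + ‖i‖ * ‖v k‖ * ‖i' - c k * i'‖) * ‖y‖ := by
                refine (norm_mul_le _ _).trans (mul_le_mul_of_nonneg_right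
                  ((norm_mul_le _ _).trans (mul_le_mul_of_nonneg_left ?_ (norm_nonneg x)))
                  (norm_nonneg y))
                exact (norm_add_le _ _).trans (add_le_add (norm_mul₃_le ..) (norm_mul₃_le ..))
            _ ≤ ‖x‖ * (ρ * ‖v k‖ * (‖i'‖ + 1) + ‖i‖ * ‖v k‖ * ρ) * ‖y‖ := by gcongr
            _ ≤ ρ * C := by
              have : (0:ℝ) ≤ ρ := le_min zero_le_one (by positivity)
              simp only [C]
              nlinarith
            _ ≤ θ := hρC
    | zero =>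
      exact fun θ hθ => ⟨fun _ => ∅, 1, one_pos, by simp,
        fun c _ => ⟨0, Submodule.zero_mem _, by simpa using hθ.le⟩⟩
    | add a b _ _ ha hb =>
      intro θ hθ
      obtain ⟨s, ρ, hρ, hs, ha⟩ := ha (θ / 2) (half_pos hθ)
      obtain ⟨s', ρ', hρ', hs', hb⟩ := hb (θ / 2) (half_pos hθ)
      refine ⟨fun k => s k ∪ s' k, min ρ ρ', lt_min hρ hρ', fun k i hi => ?_, fun c hc => ?_⟩
      · rcases Finset.mem_union.1 hi with h | h
        exacts [hs k i h, hs' k i h]
      · obtain ⟨a', ha', d1⟩ := ha c fun k i hi =>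
          ⟨(hc k i (by simp [hi])).1.trans (min_le_left _ _),
            (hc k i (by simp [hi])).2.trans (min_le_left _ _)⟩
        obtain ⟨b', hb', d2⟩ := hb c fun k i hi =>
          ⟨(hc k i (by simp [hi])).1.trans (min_le_right _ _),
            (hc k i (by simp [hi])).2.trans (min_le_right _ _)⟩
        refine ⟨a' + b', add_mem ha' hb', ?_⟩
        rw [add_sub_add_comm]
        exact (norm_add_le _ _).trans (by linarith)
    | smul r a _ ha =>
      intro θ hθ
      obtain ⟨s, ρ, hρ, hs, ha⟩ := ha (θ / (‖r‖ + 1)) (by positivity)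
      refine ⟨s, ρ, hρ, hs, fun c hc => ?_⟩
      obtain ⟨a', ha', d⟩ := ha c hc
      refine ⟨r • a', Submodule.smul_mem _ r ha', ?_⟩
      rw [← smul_sub, norm_smul]
      calc ‖r‖ * ‖a - a'‖ ≤ (‖r‖ + 1) * (θ / (‖r‖ + 1)) := by
            gcongr; linarith
        _ = θ := by field_simp
  obtain ⟨s, ρ, hρ, hs, hgood⟩ := key η hη
  choose c hc hcs hcu using fun k => exists_unit_finset (hI k) (s k) (hs k) hρ
  obtain ⟨g', hg', hd⟩ := hgood c hcu
  refine ⟨c, fun k => ⟨hc k, hcs k⟩, (Metric.infDist_le_dist_of_mem hg').trans ?_⟩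
  rw [dist_eq_norm]
  calc ‖T - g'‖ ≤ ‖T - g‖ + ‖g - g'‖ := by
        simpa [dist_eq_norm] using dist_triangle T g g'
    _ ≤ 3 * η := by linarith

section Orth

variable {K : ℕ} {I : Fin K → Submodule ℂ A}

lemma star_mul_eq_zero_of_orth (hI : ∀ k, IsClosedIdeal A (I k))
    (horth : ∀ k l, k ≠ l → I k ⊓ I l = ⊥) {k l : Fin K} (hkl : k ≠ l) {a b : A} (ha : a ∈ I k)
    (hb : b ∈ I l) : star a * b = 0 ∧ a * star b = 0 := by
  constructor
  · have : star a * b ∈ I k ⊓ I l :=
      ⟨((hI k).2 b _ ((hI k).star_mem ha)).2, ((hI l).2 (star a) b hb).1⟩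
    rwa [horth k l hkl, Submodule.mem_bot] at this
  · have : a * star b ∈ I k ⊓ I l :=
      ⟨((hI k).2 (star b) a ha).2, ((hI l).2 a _ ((hI l).star_mem hb)).1⟩
    rwa [horth k l hkl, Submodule.mem_bot] at this

lemma star_sum_mul_sum (hI : ∀ k, IsClosedIdeal A (I k))
    (horth : ∀ k l, k ≠ l → I k ⊓ I l = ⊥) (X Y : Fin K → A) (hX : ∀ k, X k ∈ I k)
    (hY : ∀ k, Y k ∈ I k) :
    star (∑ k, X k) * (∑ k, Y k) = ∑ k, star (X k) * Y k := by
  rw [star_sum, Finset.sum_mul]
  refine Finset.sum_congr rfl fun k _ => ?_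
  rw [Finset.mul_sum]
  exact Finset.sum_eq_single k
    (fun l _ hl => (star_mul_eq_zero_of_orth hI horth (Ne.symm hl) (hX k) (hY l)).1) (by simp)

lemma norm_sum_orth_le (hI : ∀ k, IsClosedIdeal A (I k))
    (horth : ∀ k l, k ≠ l → I k ⊓ I l = ⊥) (X : Fin K → A) (hX : ∀ k, X k ∈ I k) {B : ℝ}
    (hB : 0 ≤ B) (h : ∀ k, ‖X k‖ ≤ B) : ‖∑ k, X k‖ ≤ B := by
  have h2 : ‖∑ k, star (X k) * X k‖ ≤ B * B := by
    refine norm_sum_orth_selfAdjoint _ _ (by positivity) (fun k _ => IsSelfAdjoint.star_mul_self _)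
      (fun k _ l _ hkl => ?_) fun k _ => ?_
    · rw [mul_assoc, ← mul_assoc (X k) (star (X l)),
        (star_mul_eq_zero_of_orth hI horth hkl (hX k) (hX l)).2, zero_mul, mul_zero]
    · rw [CStarRing.norm_star_mul_self]
      exact mul_le_mul (h k) (h k) (norm_nonneg _) hB
  rw [← star_sum_mul_sum hI horth X X hX hX, CStarRing.norm_star_mul_self] at h2
  exact (mul_self_le_mul_self_iff (norm_nonneg _) hB).2 h2

end Orth

lemma Sep.of_gen {δ : ℝ} {a b : A}
    (h : ∀ w w', ‖star (a * w) * (b * w')‖ ≤ δ * ‖a * w‖ * ‖b * w'‖) : Sep δ a b := fun p q hp hq =>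
  hp.of_closed (S := {p | ‖star p * q‖ ≤ δ * ‖p‖ * ‖q‖}) (isClosed_le (by fun_prop) (by fun_prop))
    fun w => hq.of_closed (S := {q | ‖star (a * w) * q‖ ≤ δ * ‖a * w‖ * ‖q‖})
      (isClosed_le (by fun_prop) (by fun_prop)) (h w)

lemma stage_one (hDR : DisjointRefinement A) (hW : WeaklyPurelyInfinite A) {x y : A}
    (hx : star x = x) (hy : star y = y) {δ θ : ℝ} (hδ : 0 < δ) (hθ : 0 < θ) :
    ∃ a b : A, RMem x a ∧ RMem y b ∧ Sep δ a b ∧
      Metric.infDist x (gen {a} : Set A) ≤ θ ∧ Metric.infDist y (gen {b} : Set A) ≤ θ := by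
  have hTx : 0 ≤ x * x := by have := star_mul_self_nonneg x; rwa [hx] at this
  have hTy : 0 ≤ y * y := by have := star_mul_self_nonneg y; rwa [hy] at this
  set M := ‖x‖ + ‖y‖ + 1
  have hM : 0 < M := by positivity
  set θ' := θ ^ 2 / 20 with hθ'
  have hθ'0 : 0 < θ' := by positivity
  set η := min θ' ((θ' / M) ^ 2 / 25) with hηdef
  have hη : 0 < η := lt_min hθ'0 (by positivity)
  let Good : A × A × Submodule ℂ A → Prop := fun c =>
    RMem x c.1 ∧ RMem y c.2.1 ∧ Sep δ c.1 c.2.1 ∧ IsClosedIdeal A c.2.2 ∧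
      ∀ Q, IsPrimeIdeal Q → ¬ c.2.2 ≤ Q →
        (η / 2 < Metric.infDist (x * x) (Q : Set A) → c.1 ∉ Q) ∧
        (η / 2 < Metric.infDist (y * y) (Q : Set A) → c.2.1 ∉ Q)
  obtain ⟨K, I, r, hI, horth, hcov⟩ := exists_refinement hDR (add_nonneg hTx hTy) hη
    (fun c : A × A × Submodule ℂ A => c.2.2) Good (fun c hc => hc.2.2.2.1) (fun P hP hd => by
      have h2 : η / 2 < Metric.infDist (x * x) (P : Set A) ∨
          η / 2 < Metric.infDist (y * y) (P : Set A) := by
        by_contra hcon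
        push Not at hcon
        have := infDist_add_le (P := P) (x * x) (y * y)
        linarith [hcon.1, hcon.2]
      obtain ⟨a, b, J, ha, hb, hs, hJ, hJP, hQ⟩ := local_pair hW hx hy hδ (half_pos hη) hP h2
      exact ⟨(a, b, J), ⟨ha, hb, hs, hJ, hQ⟩, hJP⟩)
  have hcl : ∀ k, IsClosedIdeal A (I k) := fun k => (hI k).1
  have valid : ∀ z : A, star z = z → ‖z‖ ≤ M → z * z ≤ x * x + y * y →
      ∀ P, IsPrimeIdeal P → θ' < Metric.infDist (z * z) (P : Set A) → ∃ k, ¬ I k ≤ P := by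
    intro z hz hzM hzle P hP hd
    by_contra hcon
    push Not at hcon
    have h1 := hcov P hP.1 hcon
    have h2 := hP.1.infDist_le_sqrt (a := z) (T := x * x + y * y)
      (by rwa [hz]) (κ := 5 * η) (by linarith)
    have h3 := infDist_mul_left_le hP.1 z z
    have h4 : √(5 * (5 * η)) ≤ θ' / M := by
      rw [show θ' / M = √((θ' / M) ^ 2) from (Real.sqrt_sq (by positivity)).symm]
      exact Real.sqrt_le_sqrt (by linarith [min_le_right θ' ((θ' / M) ^ 2 / 25)])
    have h5 : ‖z‖ * Metric.infDist z (P : Set A) ≤ M * (θ' / M) :=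
      mul_le_mul hzM (h2.trans h4) Metric.infDist_nonneg hM.le
    rw [mul_div_cancel₀ θ' hM.ne'] at h5
    linarith
  have hsmall : η / 2 < θ' := by linarith [min_le_left θ' ((θ' / M) ^ 2 / 25)]
  obtain ⟨c, hc, hcd⟩ := exists_cutoff I hcl (fun k => star (r k).1 * (r k).1) hTx hθ'0
    (fun P hP hd => by
      obtain ⟨k, hk⟩ := valid x hx (by simp only [M]; linarith [norm_nonneg y])
        (le_add_of_nonneg_right hTy) P hP hd
      refine ⟨k, hk, fun hmem => ?_⟩
      exact ((hI k).2.2.2.2.2.2 P hP (fun hle => hk ((hI k).2.1.trans hle))).1 (hsmall.trans hd)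
        (hP.1.mem_of_star_mul_le hmem le_rfl))
  obtain ⟨c', hc', hcd'⟩ := exists_cutoff I hcl (fun k => star (r k).2.1 * (r k).2.1) hTy hθ'0
    (fun P hP hd => by
      obtain ⟨k, hk⟩ := valid y hy (by simp only [M]; linarith [norm_nonneg x])
        (le_add_of_nonneg_left hTx) P hP hd
      refine ⟨k, hk, fun hmem => ?_⟩
      exact ((hI k).2.2.2.2.2.2 P hP (fun hle => hk ((hI k).2.1.trans hle))).2 (hsmall.trans hd)
        (hP.1.mem_of_star_mul_le hmem le_rfl))
  set a := ∑ k, (r k).1 * c k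
  set b := ∑ k, (r k).2.1 * c' k
  have hac : ∀ k, (r k).1 * c k ∈ I k := fun k => ((hcl k).2 _ _ (hc k).1).1
  have hbc : ∀ k, (r k).2.1 * c' k ∈ I k := fun k => ((hcl k).2 _ _ (hc' k).1).1
  have final : ∀ (z : A) (f d : Fin K → A), star z = z → (∀ k, star (d k) = d k) →
      (∀ k, f k * d k ∈ I k) →
      Metric.infDist (z * z) (gen (Set.range fun k => d k * (star (f k) * f k) * d k) : Set A)
        ≤ 3 * θ' →
      Metric.infDist z (gen {∑ k, f k * d k} : Set A) ≤ θ := by
    intro z f d hz hd hm hle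
    set G := gen {∑ k, f k * d k}
    have hGcl := isClosedIdeal_gen {∑ k, f k * d k}
    have hsub : gen (Set.range fun k => d k * (star (f k) * f k) * d k) ≤ G := by
      refine gen_le hGcl ?_
      rintro _ ⟨k, rfl⟩
      have e : d k * (star (f k) * f k) * d k = star (f k * d k) * (f k * d k) := by
        simp [star_mul, hd, mul_assoc]
      simp only
      rw [e]
      refine hGcl.mem_of_nonneg_of_le (star_mul_self_nonneg _) ?_
        (hGcl.2 (star (∑ k, f k * d k)) _ (subset_gen (Set.mem_singleton _))).1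
      rw [star_sum_mul_sum hcl horth _ _ hm hm]
      exact Finset.single_le_sum (f := fun k => star (f k * d k) * (f k * d k))
        (fun j _ => star_mul_self_nonneg _) (Finset.mem_univ k)
    have h1 : Metric.infDist (z * z) (G : Set A) < 4 * θ' :=
      ((Metric.infDist_le_infDist_of_subset hsub ⟨0, Submodule.zero_mem _⟩).trans hle).trans_lt
        (by linarith)
    refine (hGcl.infDist_le_sqrt (a := z) (by rw [hz]) h1).trans ?_
    rw [show 5 * (4 * θ') = θ ^ 2 by rw [hθ']; ring, Real.sqrt_sq hθ.le]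
  refine ⟨a, b, RMem.sum _ fun k _ => ((hI k).2.2.1.mul _),
    RMem.sum _ fun k _ => ((hI k).2.2.2.1.mul _), Sep.of_gen fun w w' => ?_,
    final x _ c hx (fun k => (hc k).2) hac hcd, final y _ c' hy (fun k => (hc' k).2) hbc hcd'⟩
  set p := fun k => (r k).1 * c k * w
  set q := fun k => (r k).2.1 * c' k * w'
  have hp : ∀ k, p k ∈ I k := fun k => ((hcl k).2 w _ (hac k)).2
  have hq : ∀ k, q k ∈ I k := fun k => ((hcl k).2 w' _ (hbc k)).2
  have ep : a * w = ∑ k, p k := Finset.sum_mul _ _ _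
  have eq' : b * w' = ∑ k, q k := Finset.sum_mul _ _ _
  have single : ∀ (f : Fin K → A), (∀ k, f k ∈ I k) → ∀ k, ‖f k‖ ≤ ‖∑ k, f k‖ := by
    intro f hf k
    have h := CStarAlgebra.norm_le_norm_of_nonneg_of_le (star_mul_self_nonneg (f k))
      (Finset.single_le_sum (f := fun k => star (f k) * f k)
        (fun j _ => star_mul_self_nonneg _) (Finset.mem_univ k))
    rw [← star_sum_mul_sum hcl horth f f hf hf, CStarRing.norm_star_mul_self,
      CStarRing.norm_star_mul_self] at h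
    exact (mul_self_le_mul_self_iff (norm_nonneg _) (norm_nonneg _)).2 h
  rw [ep, eq', star_sum_mul_sum hcl horth p q hp hq]
  refine norm_sum_orth_le hcl horth _ (fun k => ((hcl k).2 _ _ (hq k)).1) (by positivity) fun k => ?_
  calc ‖star (p k) * q k‖ ≤ δ * ‖p k‖ * ‖q k‖ :=
        (hI k).2.2.2.2.1 _ _ ((rmem_mul _ _).mul w) ((rmem_mul _ _).mul w')
    _ ≤ δ * ‖∑ k, p k‖ * ‖∑ k, q k‖ := by
        gcongr
        exacts [single p hp k, single q hq k]

lemma stage_two (hDR : DisjointRefinement A) (hW : WeaklyPurelyInfinite A) (m : ℕ) (a : A)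
    {θ : ℝ} (hθ : 0 < θ) :
    ∃ z : Fin (m + 1) → A, (∀ i, RMem a (z i)) ∧ (∀ i j, i ≠ j → star (z i) * z j = 0) ∧
      (∀ i, star (z i) * z i = star (z 0) * z 0) ∧
      Metric.infDist a (gen {star (z 0) * z 0} : Set A) ≤ θ := by
  set T := a * star a
  have hT : 0 ≤ T := mul_star_self_nonneg a
  set η := θ ^ 2 / 100 with hη'
  have hη : 0 < η := by positivity
  let Good : (Fin (m + 1) → A) → Prop := fun z =>
    (∀ i, RMem a (z i)) ∧ (∀ i j, i ≠ j → star (z i) * z j = 0) ∧
      (∀ i, star (z i) * z i = star (z 0) * z 0)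
  obtain ⟨K, I, r, hI, horth, hcov⟩ := exists_refinement hDR hT hη
    (fun z : Fin (m + 1) → A => gen {z 0}) Good (fun z _ => isClosedIdeal_gen _)
    (fun P hP hd => by
      have haP : a ∉ P := fun h => by
        rw [Metric.infDist_zero_of_mem (s := (P : Set A)) (hP.1.2 (star a) a h).2] at hd
        linarith
      obtain ⟨z, h1, h2, h3, h4⟩ := local_family hW m hP haP
      exact ⟨z, ⟨h1, h2, h3⟩, fun h => h4 (h (subset_gen (Set.mem_singleton _)))⟩)
  have hcl : ∀ k, IsClosedIdeal A (I k) := fun k => (hI k).1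
  obtain ⟨c, hc, hcd⟩ := exists_cutoff I hcl (fun k => star (r k 0) * r k 0) hT
    (show 0 < 4 * η by linarith) (fun P hP hd => by
      by_contra hcon
      push Not at hcon
      refine absurd (hcov P hP.1 fun k => ?_) (not_le.2 hd)
      by_contra hk
      exact hk ((hI k).2.1.trans (gen_le hP.1 (by
        simpa using hP.1.mem_of_star_mul_le (hcon k hk) le_rfl))))
  set Z := fun i => ∑ k, r k i * c k
  have hZ : ∀ i k, r k i * c k ∈ I k := fun i k => ((hcl k).2 _ _ (hc k).1).1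
  have hprod : ∀ i j, star (Z i) * Z j = ∑ k, c k * (star (r k i) * r k j) * c k := by
    intro i j
    rw [star_sum_mul_sum hcl horth _ _ (hZ i) (hZ j)]
    refine Finset.sum_congr rfl fun k _ => ?_
    simp [star_mul, (hc k).2, mul_assoc]
  refine ⟨Z, fun i => RMem.sum _ fun k _ => ((hI k).2.2.1 i).mul _, fun i j hij => ?_,
    fun i => ?_, ?_⟩
  · rw [hprod]
    exact Finset.sum_eq_zero fun k _ => by simp [(hI k).2.2.2.1 i j hij]
  · rw [hprod, hprod]
    exact Finset.sum_congr rfl fun k _ => by rw [(hI k).2.2.2.2 i]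
  · set G := gen {star (Z 0) * Z 0}
    have hG := isClosedIdeal_gen {star (Z 0) * Z 0}
    have hsub : gen (Set.range fun k => c k * (star (r k 0) * r k 0) * c k) ≤ G := by
      refine gen_le hG ?_
      rintro _ ⟨k, rfl⟩
      have nn : ∀ j, 0 ≤ c j * (star (r j 0) * r j 0) * c j := fun j => by
        have := star_left_conjugate_nonneg (star_mul_self_nonneg (r j 0)) (c j)
        rwa [(hc j).2] at this
      refine hG.mem_of_nonneg_of_le (nn k) ?_ (subset_gen (Set.mem_singleton _))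
      rw [hprod]
      exact Finset.single_le_sum (f := fun j => c j * (star (r j 0) * r j 0) * c j)
        (fun j _ => nn j) (Finset.mem_univ k)
    have h1 : Metric.infDist T (G : Set A) < 20 * η :=
      ((Metric.infDist_le_infDist_of_subset hsub ⟨0, Submodule.zero_mem _⟩).trans hcd).trans_lt
        (by linarith)
    have h2 := hG.infDist_le_sqrt (a := star a) (by rw [star_star]) h1
    rw [show 5 * (20 * η) = θ ^ 2 by rw [hη']; ring, Real.sqrt_sq hθ.le] at h2
    refine le_of_forall_pos_le_add fun e he => ?_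
    obtain ⟨g, hg, hd⟩ := (Metric.infDist_lt_iff ⟨0, Submodule.zero_mem _⟩).1
      (lt_of_le_of_lt h2 (lt_add_of_pos_right θ he))
    refine (Metric.infDist_le_dist_of_mem (hG.star_mem hg)).trans ?_
    rw [dist_eq_norm] at hd ⊢
    rw [← norm_star, star_sub, star_star]
    linarith

end Vale.Agent.P133
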